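import Vale.Agent.P042.Z.Defs
import Vale.Agent.P042.I.Tow
import Vale.Agent.P042.I.Del

/-! # P042 Z/CPb (TASK; helper names end with _zcb): degrees, bad fibres, separable fibres.
`Cv.coef`: `Polynomial.Bivariate.swap` fixes `F = H.map C + C H` (or: `swap F` has degree `≤ natDegree H` and is not zero), `natDegree_le_of_dvd`, `((swap g).coeff j).coeff i = (g.coeff i).coeff j` (induction on `g`, or `Bivariate.swap_monomial_monomial`), `natDegree_le_iff_coeff_eq_zero`.
`gd_ex`: the union over the at most `k` roots `γ` of `derivative H` of the roots of `H + C (H γ)`, `H + C t - C (H γ)`, `H + C t + C (H γ)` (degree `k > 0`), `card_biUnion_le_card_mul`, `card_roots'`.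
`Cv.sep`: `Cv.ev` with `M = K` (`Algebra.algebraMap_self`, `Polynomial.map_id`, `coe_aeval_eq_eval`), `sep_lev`, `Separable.of_dvd`.  `Cv.fib`: the roots of `H + C (H x) ≠ 0` (`Cv.val`). -/

namespace Vale.Agent.P042.S

open Finset Polynomial

variable {K : Type} [Field K] {H : K[X]} {f : K[X][X]}

theorem swap_zcb (g : K[X][X]) (i j : ℕ) :
    ((Bivariate.swap g).coeff j).coeff i = (g.coeff i).coeff j := by
  induction g using Polynomial.induction_on' with
  | add p q hp hq => simp only [map_add, coeff_add, hp, hq]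
  | monomial n a =>
    rw [Bivariate.swap_monomial, coeff_mul_C, coeff_map, coeff_C_mul, coeff_X_pow, coeff_monomial]
    by_cases h : n = i
    · rw [if_pos h, if_pos h.symm, mul_one]
    · rw [if_neg h, if_neg fun e => h e.symm, mul_zero, coeff_zero]

theorem root_zcb [DecidableEq K] (h0 : 0 < H.natDegree) (c : K) :
    (H - C c).roots.toFinset.card ≤ H.natDegree ∧
      ∀ y, H.eval y = c → y ∈ (H - C c).roots.toFinset := by
  refine ⟨(Multiset.toFinset_card_le _).trans ((card_roots' _).trans natDegree_sub_C.le),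
    fun y hy => ?_⟩
  rw [Multiset.mem_toFinset, mem_roots (ne_zero_of_natDegree_gt (n := 0)
    (by rwa [natDegree_sub_C])), IsRoot.def, eval_sub, eval_C, hy, sub_self]

theorem Cv.coef (h : Cv H f) (i : ℕ) : (f.coeff i).natDegree ≤ H.natDegree := by
  have h1 := map_dvd Bivariate.swap h.dvd
  rw [map_add, Bivariate.swap_map_C, Bivariate.swap_C] at h1
  have h2 : (C H + H.map C : K[X][X]).natDegree = H.natDegree := by
    rw [add_comm, natDegree_add_C, natDegree_map_eq_of_injective C_injective]
  have h3 := (natDegree_le_of_dvd h1 (ne_zero_of_natDegree_gt (h2 ▸ h.pos))).trans h2.le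
  refine natDegree_le_iff_coeff_eq_zero.2 fun j hj => ?_
  rw [← swap_zcb, coeff_eq_zero_of_natDegree_lt (h3.trans_lt hj), coeff_zero]

theorem gd_ex (h0 : 0 < H.natDegree) (h1 : derivative H ≠ 0) (t : K) :
    ∃ B : Finset K, B.card ≤ 3 * H.natDegree ^ 2 ∧ ∀ x ∉ B, Gd H t x := by
  classical
  refine ⟨(derivative H).roots.toFinset.biUnion fun γ => (H - C (-H.eval γ)).roots.toFinset ∪
    (H - C (H.eval γ - t)).roots.toFinset ∪ (H - C (-H.eval γ - t)).roots.toFinset, ?_,
      fun x hx γ hγ => ?_⟩
  · refine (card_biUnion_le_card_mul _ _ (3 * H.natDegree) fun γ _ => ?_).trans ?_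
    · refine (card_union_le _ _).trans ((Nat.add_le_add_right (card_union_le _ _) _).trans ?_)
      have a1 := (root_zcb h0 (-H.eval γ)).1
      have a2 := (root_zcb h0 (H.eval γ - t)).1
      have a3 := (root_zcb h0 (-H.eval γ - t)).1
      omega
    · have h2 : (derivative H).roots.toFinset.card ≤ H.natDegree :=
        (Multiset.toFinset_card_le _).trans ((card_roots' _).trans
          ((natDegree_derivative_le H).trans (Nat.sub_le _ _)))
      nlinarith
  · have h2 : γ ∈ (derivative H).roots.toFinset :=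
      Multiset.mem_toFinset.2 ((mem_roots h1).2 hγ)
    refine ⟨fun e => hx (mem_biUnion.2 ⟨γ, h2, mem_union_left _ (mem_union_left _
      ((root_zcb h0 _).2 x ?_))⟩), fun e => hx (mem_biUnion.2 ⟨γ, h2, mem_union_left _
        (mem_union_right _ ((root_zcb h0 _).2 x ?_))⟩), fun e => hx (mem_biUnion.2 ⟨γ, h2,
          mem_union_right _ ((root_zcb h0 _).2 x ?_)⟩)⟩
    · linear_combination e
    · linear_combination -e
    · linear_combination e

theorem der_ne {p : ℕ} [CharP K p] (h0 : 0 < H.natDegree) (hp : H.natDegree < p) :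
    derivative H ≠ 0 := by
  intro h
  obtain ⟨n, hn⟩ := Nat.exists_eq_succ_of_ne_zero h0.ne'
  have h1 := coeff_derivative H n
  rw [h, coeff_zero, ← Nat.cast_succ, ← Nat.succ_eq_add_one, ← hn] at h1
  rcases mul_eq_zero.1 h1.symm with h2 | h2
  · exact leadingCoeff_ne_zero.2 (ne_zero_of_natDegree_gt h0) h2
  · exact (Nat.le_of_dvd h0 ((CharP.cast_eq_zero_iff K p _).1 h2)).not_gt hp

theorem Cv.sep [IsAlgClosed K] (h : Cv H f) {x : K}
    (hx : ∀ γ, (derivative H).eval γ = 0 → H.eval γ ≠ -H.eval x) :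
    (f.map ((aeval x : K[X] →ₐ[K] K) : K[X] →+* K)).Separable := by
  have h1 := h.ev x
  rw [Algebra.algebraMap_self, Polynomial.map_id, coe_aeval_eq_eval] at h1
  refine (sep_lev hx).of_dvd ?_
  rw [C_neg, sub_neg_eq_add]
  exact h1

theorem val_card (h0 : 0 < H.natDegree) (c : K) {S : Finset K} (hS : ∀ y ∈ S, H.eval y = c) :
    S.card ≤ H.natDegree := by
  classical
  exact (card_le_card fun y hy => (root_zcb h0 c).2 y (hS y hy)).trans (root_zcb h0 c).1

theorem Cv.fib (h : Cv H f) {x : K} {S : Finset K} (hS : ∀ y ∈ S, On f x y) :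
    S.card ≤ H.natDegree := by
  refine val_card h.pos (-H.eval x) fun y hy => ?_
  have h1 := h.val (hS y hy)
  rwa [coe_aeval_eq_eval, coe_aeval_eq_eval] at h1

end Vale.Agent.P042.S
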