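import Vale.Agent.P042.Z.Defs
import Vale.Agent.P042.K.GenB

/-! # P042 Z/Good (TASK; helper names end with _zgo): local weights from SymG.
`good3g`: model `good3` in K/GenA.  `x v` a noncritical preimage for `ν v ≠ 0`, `s = ∑ ν ≥ p`, `ω n = p / s * ∑ v, if ν v ≠ 0 ∧ x v = (n : ZMod p) then ν v else 0` (at most one term: `v = H (n)`); `κ = (∑ v, ν v * ψ (a v)).re / s`, real by symmetry.
`good4g`: copy the proof of `good4` (K/GenB) with `good3g` in place of `good3`. -/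

namespace Vale.Agent.P042.S

open Finset Polynomial

theorem good3g {g : ℤ[X]} {p : ℕ} [Fact p.Prime] {B : ℝ}
    (h : SymG (g.map (Int.castRingHom (ZMod p))) B) :
    1 ≤ B ∧ ∃ ω : ℤ → ℝ, Function.Periodic ω (p : ℤ) ∧ ∑ t ∈ range p, ω t = p ∧
      (∀ n, 0 ≤ ω n ∧ ω n ≤ B) ∧ (∀ n, (p : ℤ) ∣ (derivative g).eval n → ω n = 0) ∧
      ∀ a : ℤ, IsCoprime a p → ∃ κ : ℝ, |κ| ≤ B ^ 2 * (p : ℝ) ^ (-(1 / 4) : ℝ) ∧
        (av p fun n => ω n * ph g a p n) = κ := by
  classical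
  obtain ⟨hB, ν, hν, hs, hx, hc, hF⟩ := h
  have hp : p.Prime := Fact.out
  have hpR : (0 : ℝ) < p := by exact_mod_cast hp.pos
  choose! x hx1 hx2 using hx
  obtain ⟨W, hW⟩ : ∃ W : Finset (ZMod p), W = univ.filter fun v => ν v ≠ 0 := ⟨_, rfl⟩
  have mW : ∀ v ∈ W, ν v ≠ 0 := fun v hv => by
    rw [hW] at hv
    exact (mem_filter.1 hv).2
  have sW : ∀ {M : Type} [AddCommMonoid M] (F : ZMod p → M), (∀ v, ν v = 0 → F v = 0) →
      ∑ v ∈ W, F v = ∑ v, F v := by
    intro M _ F hF0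
    rw [hW]
    exact sum_filter_of_ne fun v _ h1 h2 => h1 (hF0 v h2)
  have hinj : Set.InjOn x W := fun v hv w hw e => by
    rw [← hx1 v (mW v hv), e, hx1 w (mW w hw)]
  obtain ⟨c, hc'⟩ : ∃ c : ℝ, c = ∑ v, ν v := ⟨_, rfl⟩
  rw [← hc'] at hc
  have c0 : 0 < c := hpR.trans_le hc
  have ev : ∀ (q : ℤ[X]) (n : ℤ), (q.map (Int.castRingHom (ZMod p))).eval (n : ZMod p) =
      ((q.eval n : ℤ) : ZMod p) := fun q n => by
    simpa using eval_intCast_map (Int.castRingHom (ZMod p)) q n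
  have hsum : ∀ {M : Type} [AddCommMonoid M] (F : ZMod p → M),
      ∑ t ∈ range p, (if (t : ZMod p) ∈ W.image x then F t else 0) = ∑ v ∈ W, F (x v) := by
    intro M _ F
    have := sum_qa (fun y => if y ∈ W.image x then F y else 0) one_ne_zero (0 : ZMod p)
    simp only [one_mul, add_zero] at this
    rw [this, ← sum_filter, filter_mem_eq_inter, univ_inter, sum_image hinj]
  refine ⟨hB, fun n => if (n : ZMod p) ∈ W.image x then
    p / c * ν ((g.map (Int.castRingHom (ZMod p))).eval (n : ZMod p)) else 0, fun n => by simp, ?_,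
    fun n => ?_, fun n hn => ?_, fun a ha => ?_⟩
  · simp only [Int.cast_natCast]
    rw [hsum fun y => (p : ℝ) / c * ν ((g.map (Int.castRingHom (ZMod p))).eval y),
      sum_congr rfl fun v hv => by rw [hx1 v (mW v hv)], ← mul_sum, sW ν fun _ h => h, ← hc']
    field_simp
  · dsimp only
    split_ifs
    · obtain ⟨h1, h2⟩ := hν ((g.map (Int.castRingHom (ZMod p))).eval (n : ZMod p))
      exact ⟨by positivity, (mul_le_of_le_one_left h1 ((div_le_one c0).2 hc)).trans h2⟩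
    · exact ⟨le_rfl, by linarith⟩
  · refine if_neg fun h => ?_
    obtain ⟨v, hv, e⟩ := mem_image.1 h
    refine hx2 v (mW v hv) ?_
    rw [e, derivative_map, ev, (ZMod.intCast_zmod_eq_zero_iff_dvd _ _).2 hn]
  · have ha' : (a : ZMod p) ≠ 0 := by
      intro h
      have h3 := ha.isUnit_of_dvd' ((ZMod.intCast_zmod_eq_zero_iff_dvd _ _).mp h) dvd_rfl
      rw [Int.isUnit_iff] at h3
      have := hp.two_le
      omega
    have h1 := hF a ha'
    obtain ⟨S, hS⟩ : ∃ S : ℂ, S = ∑ v, (ν v : ℂ) * ZMod.stdAddChar ((a : ZMod p) * v) := ⟨_, rfl⟩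
    have h2 : (starRingEnd ℂ) S = S := by
      rw [hS, map_sum]
      refine sum_nbij' (fun v => -v) (fun v => -v) (fun _ _ => mem_univ _) (fun _ _ => mem_univ _)
        (fun _ _ => neg_neg _) (fun _ _ => neg_neg _) fun v _ => ?_
      rw [mul_neg, AddChar.map_neg_eq_conj, hs, map_mul, Complex.conj_ofReal]
    rw [← hS] at h1
    have h3 := Complex.conj_eq_iff_re.1 h2
    refine ⟨S.re / c, ?_, ?_⟩
    · have h4 : (p : ℝ) ^ (3 / 4 : ℝ) = (p : ℝ) ^ (-(1 / 4) : ℝ) * p := by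
        rw [← Real.rpow_add_one hpR.ne']
        norm_num
      have h5 : 0 < (p : ℝ) ^ (-(1 / 4) : ℝ) := Real.rpow_pos_of_pos hpR _
      have h6 : (p : ℝ) ≤ B * c := hc.trans (le_mul_of_one_le_left c0.le hB)
      rw [abs_div, abs_of_pos c0, div_le_iff₀ c0]
      calc |S.re| ≤ B * ((p : ℝ) ^ (-(1 / 4) : ℝ) * p) := h4 ▸ (Complex.abs_re_le_norm S).trans h1
        _ ≤ B * ((p : ℝ) ^ (-(1 / 4) : ℝ) * (B * c)) := by gcongr
        _ = _ := by ring
    · have e3 : ∀ t ∈ range p,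
          ((if ((t : ℤ) : ZMod p) ∈ W.image x then (p : ℝ) / c *
            ν ((g.map (Int.castRingHom (ZMod p))).eval ((t : ℤ) : ZMod p)) else 0 : ℝ) : ℂ) *
              ph g a p (t : ℤ) =
          if (t : ZMod p) ∈ W.image x then (p / c : ℂ) *
            (ν ((g.map (Int.castRingHom (ZMod p))).eval (t : ZMod p)) * ZMod.stdAddChar
              ((a : ZMod p) * (g.map (Int.castRingHom (ZMod p))).eval (t : ZMod p))) else 0 := by
        intro t _
        rw [ph_qa, Int.cast_mul, ← ev, Int.cast_natCast]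
        split_ifs
        · push_cast
          ring
        · simp
      have hpC : (p : ℂ) ≠ 0 := by exact_mod_cast hp.ne_zero
      have hcC : (c : ℂ) ≠ 0 := by exact_mod_cast c0.ne'
      unfold av
      rw [sum_congr rfl e3, hsum fun y => (p / c : ℂ) *
        (ν ((g.map (Int.castRingHom (ZMod p))).eval y) * ZMod.stdAddChar
          ((a : ZMod p) * (g.map (Int.castRingHom (ZMod p))).eval y)),
        sum_congr rfl fun v hv => by rw [hx1 v (mW v hv)], ← mul_sum,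
        sW (fun v => (ν v : ℂ) * ZMod.stdAddChar ((a : ZMod p) * v)) fun v h => by simp [h],
        ← hS, Complex.ofReal_div, h3]
      field_simp

theorem good4g {g : ℤ[X]} {p : ℕ} [Fact p.Prime] {B : ℝ}
    (h : SymG (g.map (Int.castRingHom (ZMod p))) B)
    (hB : B ^ 8 ≤ p) {ρ : ℤ} (hρ : (p : ℤ) ∣ g.eval ρ) (hρ' : ¬ (p : ℤ) ∣ (derivative g).eval ρ) :
    ∃ ω : ℤ → ℝ, Function.Periodic ω (p : ℤ) ∧ ∑ t ∈ range p, ω t = p ∧
      (∀ n, 0 ≤ ω n ∧ ω n ≤ p) ∧ ∀ (j : ℕ) (a : ℤ), IsCoprime a p → ∃ κ : ℝ, 0 ≤ κ ∧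
        κ ≤ 2 * B ^ 2 * ((p ^ (j + 1) : ℕ) : ℝ) ^ (-(1 / 4) : ℝ) ∧
        (av (p ^ (j + 1)) fun n => ω n * ph g a (p ^ (j + 1)) n) = κ := by
  have hp : p.Prime := Fact.out
  obtain ⟨hB1, ω, hper, hsum, hb, h0, hκ⟩ := good3g h
  have hp0 : (0 : ℝ) < p := by exact_mod_cast hp.pos
  have hBp : B ≤ p := (le_self_pow₀ hB1 (by norm_num)).trans hB
  obtain ⟨ε, hε⟩ : ∃ ε : ℝ, ε = B ^ 2 * (p : ℝ) ^ (-(1 / 4) : ℝ) := ⟨_, rfl⟩
  have hε0 : 0 ≤ ε := by rw [hε]; positivity
  have hε1 : ε ≤ 1 := by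
    have h1 : (B ^ 2) ^ (4 : ℝ) ≤ p := by
      rw [show (4 : ℝ) = (4 : ℕ) by norm_num, Real.rpow_natCast, ← pow_mul]
      exact hB
    have h2 := Real.rpow_le_rpow (by positivity) h1 (by norm_num : (0 : ℝ) ≤ 1 / 4)
    rw [← Real.rpow_mul (by positivity), show (4 : ℝ) * (1 / 4) = 1 by norm_num,
      Real.rpow_one] at h2
    rw [hε, Real.rpow_neg hp0.le, ← div_eq_mul_inv, div_le_one (by positivity)]
    exact h2
  obtain ⟨δ, hδ⟩ : ∃ δ : ℤ → ℝ, δ = fun n => if (p : ℤ) ∣ n - ρ then (p : ℝ) else 0 := ⟨_, rfl⟩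
  have hδc : ∀ n, (δ n : ℂ) = if (p : ℤ) ∣ n - ρ then (p : ℂ) else 0 := by
    intro n
    rw [hδ]
    dsimp only
    split_ifs <;> simp
  have hδp : Function.Periodic δ (p : ℤ) := by
    intro n
    have h1 : n + p - ρ = n - ρ + p := by ring
    simp only [hδ, h1, dvd_add_self_right]
  have hδb : ∀ n, 0 ≤ δ n ∧ δ n ≤ p := by
    intro n
    rw [hδ]
    dsimp only
    split_ifs <;> constructor <;> linarith
  have hδs : ∑ t ∈ range p, δ t = p := by
    have h1 := av_dvd (f := fun _ => (1 : ℂ)) (q := p) (fun _ => rfl) hp.pos dvd_rfl ρ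
    rw [av_const hp.pos] at h1
    simp only [← hδc, mul_one, av] at h1
    have h2 : (p : ℂ) ≠ 0 := by exact_mod_cast hp.ne_zero
    rw [div_eq_one_iff_eq h2] at h1
    exact_mod_cast h1
  have hper' : Function.Periodic (fun n => (1 - ε) * ω n + ε * δ n) (p : ℤ) := fun n => by
    simp only [hper n, hδp n]
  refine ⟨fun n => (1 - ε) * ω n + ε * δ n, hper', ?_, fun n => ?_, fun j a ha => ?_⟩
  · rw [sum_add_distrib, ← mul_sum, ← mul_sum, hsum, hδs]
    ring
  · obtain ⟨h1, h2⟩ := hb n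
    obtain ⟨h3, h4⟩ := hδb n
    have h5 : (1 - ε) * ω n ≤ (1 - ε) * p := mul_le_mul_of_nonneg_left (by linarith) (by linarith)
    have h6 : ε * δ n ≤ ε * p := mul_le_mul_of_nonneg_left h4 hε0
    have h7 : 0 ≤ (1 - ε) * ω n := mul_nonneg (by linarith) h1
    have h8 : 0 ≤ ε * δ n := mul_nonneg hε0 h3
    constructor <;> linarith
  · rcases j with _ | j
    · obtain ⟨κ, hk, he⟩ := hκ a ha
      rw [← hε] at hk
      obtain ⟨hk1, hk2⟩ := abs_le.1 hk
      have h1 := av_dvd (ph_per g a p) hp.pos dvd_rfl ρ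
      have h2 : ∀ n : ℤ, ph g a p (ρ + p * n) = 1 := fun n => one_qu (Dvd.dvd.mul_left (by
        have h4 := (Dvd.intro n (add_sub_cancel_left ρ (p * n)).symm).trans
          (sub_dvd_eval_sub (ρ + p * n) ρ g)
        simpa using dvd_add h4 hρ) a)
      simp only [h2, av_const hp.pos, ← hδc] at h1
      refine ⟨(1 - ε) * κ + ε, by nlinarith, ?_, ?_⟩
      · rw [zero_add, pow_one, mul_assoc, ← hε]
        nlinarith
      · rw [zero_add, pow_one]
        have h3 : (av p fun n => (((1 - ε) * ω n + ε * δ n : ℝ) : ℂ) * ph g a p n) =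
            (1 - ε) * (av p fun n => ω n * ph g a p n) + ε * av p fun n => δ n * ph g a p n := by
          simp only [av, ← mul_div_assoc, ← add_div, mul_sum, ← sum_add_distrib]
          congr 1
          exact sum_congr rfl fun t _ => by push_cast; ring
        rw [h3, he, h1]
        push_cast
        ring
    · refine ⟨0, le_rfl, by positivity, ?_⟩
      rw [Complex.ofReal_zero]
      refine kill_gen hp hper' (fun n hn => ?_) j ha
      have h1 : ¬ (p : ℤ) ∣ n - ρ := fun h2 => hρ' (by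
        simpa using dvd_sub hn (h2.trans (sub_dvd_eval_sub n ρ (derivative g))))
      simp only [h0 n hn, hδ, if_neg h1, mul_zero, add_zero]

end Vale.Agent.P042.S
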