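import Vale.Agent.P042.Z.Defs
import Vale.Agent.P042.I.Tow

/-! # P042 Z/CPa (TASK; helper names end with _zca): the component through a simple root.
`K = KK p`, `H = H₀.map _`, `r = algebraMap ρ`, `F = H.map C + C H ≠ 0` with leading coefficient `C lc`, `E : K[X][X] →+* K`, `E g = (g.map (aeval r)).eval r` (`eval₂RingHom`), `E F = 0`.  A factor of `F` (`UniqueFactorizationMonoid.factors_prod`, `map_multiset_prod`, `Multiset.prod_eq_zero_iff`, or `WfDvdMonoid.induction_on_irreducible`) has `E g = 0`; its leading coefficient divides `C lc` (`leadingCoeff_dvd_leadingCoeff`), so it is a unit and `f = C u⁻¹ * g` is monic.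
`Φ = mapEquiv (mapEquiv (frobeniusEquiv K p))` fixes `F` (`H.map (frobenius K p) = H`: `map_map`, `ZMod.pow_card` or `RingHom.ext_zmod`), and `(Φ g)` at `(x ^ p, y ^ p)` is the `p`-th power of `g` at `(x, y)` (`hom_eval₂`, induction on `g`).  `Φ f` is monic, irreducible, divides `F`, `E (Φ f) = 0`.  If `Φ f ≠ f` then `f ∤ Φ f` (`Irreducible.associated_of_dvd`, `eq_of_monic_of_associated`), `f` is prime, `f * Φ f ∣ F`, and `E (derivative F) = 0` (`derivative_mul`), but this is `H' (r) ≠ 0`. -/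

namespace Vale.Agent.P042.S

open Finset Polynomial

theorem on_zca {K : Type} [Field K] (f : K[X][X]) (x y : K) : On f x y ↔ f.evalEval x y = 0 := by
  rw [On, coe_aeval_eq_evalRingHom, map_evalRingHom_eval]

theorem fac_zca {K : Type} [Field K] (x y : K) (F : K[X][X]) :
    F ≠ 0 → F.evalEval x y = 0 → ∃ g, Irreducible g ∧ g ∣ F ∧ g.evalEval x y = 0 := by
  induction F using WfDvdMonoid.induction_on_irreducible with
  | zero => exact fun h => absurd rfl h
  | unit u hu => exact fun _ h => absurd h (hu.map (evalEvalRingHom x y)).ne_zero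
  | mul a i ha hi ih =>
    intro _ h
    rw [evalEval_mul, mul_eq_zero] at h
    rcases h with h | h
    · exact ⟨i, hi, dvd_mul_right _ _, h⟩
    · obtain ⟨g, h1, h2, h3⟩ := ih ha h
      exact ⟨g, h1, h2.mul_left _, h3⟩

theorem cv_zca {K : Type} [Field K] {H : K[X]} (h0 : 0 < H.natDegree) {r : K}
    (h1 : H.eval r = 0) : ∃ f, Cv H f ∧ f.evalEval r r = 0 := by
  obtain ⟨n1, n2⟩ := nd_ito (C : K →+* K[X]) h0 H
  have hF : H.map C + C H ≠ 0 := ne_zero_of_natDegree_gt (n := 0) (by rwa [n1])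
  obtain ⟨g, g1, g2, g3⟩ := fac_zca r r _ hF
    (by rw [evalEval_add, evalEval_map_C, evalEval_C, h1, add_zero])
  have hl : IsUnit (C H.leadingCoeff) :=
    isUnit_C.2 (leadingCoeff_ne_zero.2 (ne_zero_of_natDegree_gt h0)).isUnit
  have hd := leadingCoeff_dvd_leadingCoeff g2
  rw [n2] at hd
  obtain ⟨u, hu⟩ := isUnit_of_dvd_unit hd hl
  have hc : IsUnit (C ((u⁻¹ : K[X]ˣ) : K[X])) := isUnit_C.2 (Units.isUnit _)
  refine ⟨C ((u⁻¹ : K[X]ˣ) : K[X]) * g, ⟨monic_C_mul_of_mul_leadingCoeff_eq_one ?_,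
    (irreducible_isUnit_mul hc).2 g1, hc.mul_left_dvd.2 g2, h0⟩, ?_⟩
  · rw [← hu, Units.inv_mul]
  · rw [evalEval_mul, g3, mul_zero]

theorem fix_zca {K : Type} [Field K] (φ : K ≃+* K) {H : K[X]} (hH : H.map (φ : K →+* K) = H) {r : K}
    (hr : φ r = r) (h2 : (derivative H).eval r ≠ 0) {f : K[X][X]} (h : Cv H f)
    (h3 : f.evalEval r r = 0) : f.map (mapRingHom (φ : K →+* K)) = f := by
  by_contra hne
  have hF : (H.map C + C H).map (mapRingHom (φ : K →+* K)) = H.map C + C H := by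
    rw [Polynomial.map_add, map_C, Polynomial.map_map, mapRingHom_comp_C, ← Polynomial.map_map,
      coe_mapRingHom, hH]
  have i1 : Irreducible (f.map (mapRingHom (φ : K →+* K))) :=
    (MulEquiv.irreducible_iff (mapEquiv (mapEquiv φ))).2 h.irr
  have d1 := Polynomial.map_dvd (mapRingHom (φ : K →+* K)) h.dvd
  rw [hF] at d1
  have e1 : (f.map (mapRingHom (φ : K →+* K))).evalEval r r = 0 := by
    have := map_mapRingHom_evalEval (φ : K →+* K) f r r
    rwa [h3, map_zero, RingHom.coe_coe, hr] at this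
  obtain ⟨q, hq⟩ := d1
  have d2 := h.dvd
  rw [hq] at d2
  rcases h.irr.prime.dvd_or_dvd d2 with d3 | ⟨q', rfl⟩
  · exact hne (eq_of_monic_of_associated h.mon (h.mon.map _) (h.irr.associated_of_dvd i1 d3)).symm
  · have e2 := congrArg (fun P => (derivative P).evalEval r r) hq
    simp only [derivative_add, derivative_C, add_zero, derivative_map, evalEval_map_C,
      derivative_mul, evalEval_add, evalEval_mul, h3, e1, zero_mul, mul_zero] at e2
    exact h2 e2

theorem cp_ex {p : ℕ} [Fact p.Prime] {H₀ : (ZMod p)[X]} (h0 : 0 < H₀.natDegree) {ρ : ZMod p}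
    (h1 : H₀.eval ρ = 0) (h2 : (derivative H₀).eval ρ ≠ 0) :
    ∃ f, Cv (H₀.map (algebraMap (ZMod p) (KK p))) f ∧ ∀ (x : ZMod p) (y : KK p),
      On f (algebraMap _ (KK p) x) y → On f (algebraMap _ (KK p) x) (y ^ p) := by
  have hφ : ∀ x : ZMod p, frobeniusEquiv (KK p) p (algebraMap _ (KK p) x) = algebraMap _ _ x :=
    fun x => by rw [frobeniusEquiv_def, ← map_pow, ZMod.pow_card]
  have hinj := (algebraMap (ZMod p) (KK p)).injective
  obtain ⟨f, hf, h3⟩ := cv_zca (H := H₀.map (algebraMap (ZMod p) (KK p)))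
    (by rwa [natDegree_map_eq_of_injective hinj]) (r := algebraMap _ (KK p) ρ)
    (by rw [eval_map, eval₂_at_apply, h1, map_zero])
  have h4 := fix_zca (frobeniusEquiv (KK p) p)
    (by rw [Polynomial.map_map]; exact congrArg (fun ψ => H₀.map ψ) (RingHom.ext hφ)) (hφ ρ)
    (by rw [derivative_map, eval_map, eval₂_at_apply]; exact (_root_.map_ne_zero _).2 h2) hf h3
  refine ⟨f, hf, fun x y h => ?_⟩
  rw [on_zca] at h ⊢
  have h5 := map_mapRingHom_evalEval (frobeniusEquiv (KK p) p : KK p →+* KK p) f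
    (algebraMap _ (KK p) x) y
  rwa [h4, h, map_zero, RingHom.coe_coe, hφ, frobeniusEquiv_def] at h5

end Vale.Agent.P042.S
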