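import Vale.Agent.P042.Z.Defs
import Vale.Agent.P042.A.Core
import Vale.Agent.P042.A.Par

/-! # P042 Z/Cnt (TASK; helper names end with _zcn): the point count with uniform constants.
`sa_par` for all `D ∈ [1, B]`, `r ≤ B` with `m = B` (`SA.mono`, `Fil.mono`); `choose` the constants, take sums over `range (B + 1) ×ˢ range (B + 1)` (`single_le_sum`); `sa_core`. -/

namespace Vale.Agent.P042.S

open Finset Polynomial

theorem sa_cnt (B : ℕ) : ∃ (C₀ : ℝ) (p₀ : ℕ), 0 ≤ C₀ ∧ ∀ (p : ℕ) [Fact p.Prime], p₀ ≤ p →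
    ∀ (A ι : Type) [CommRing A] [Algebra (KK p) A] [Algebra (KK p)[X] A]
      [IsScalarTower (KK p) (KK p)[X] A] [Fintype ι] [IsDomain A]
      (e : Module.Basis ι (KK p)[X] A) (δ : A →ₗ[KK p] A) (m r : ℕ), 0 < Fintype.card ι →
      Fintype.card ι ≤ B → m ≤ B → r ≤ B → SA e δ m → ∀ γ : ι → Fin r → A,
      (∀ j s, Fil e B (γ j s)) → ∀ S : Finset (A →ₐ[KK p] KK p),
      (∀ π ∈ S, ∃ x : ZMod p, π (algebraMap (KK p)[X] A X) = algebraMap _ _ x ∧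
        ∃ T, Fib δ (Fintype.card ι) (algebraMap _ _ x) T) →
      (∀ π ∈ S, ∃ ζ : Fin r → KK p, ∀ j, π (e j) ^ p = ∑ s, π (γ j s) * ζ s) →
      (S.card : ℝ) ≤ r * p + C₀ * √p := by
  choose C q hC hq using fun D r : ℕ => sa_par (D + 1) B r (Nat.succ_pos D)
  refine ⟨∑ x ∈ range (B + 1) ×ˢ range (B + 1), C x.1 x.2,
    ∑ x ∈ range (B + 1) ×ˢ range (B + 1), q x.1 x.2, sum_nonneg fun x _ => hC _ _, ?_⟩
  intro p _ hp A ι _ _ _ _ _ _ e δ m r h0 hB hm hr h γ hγ S hS hζ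
  obtain ⟨D, hD⟩ := Nat.exists_eq_succ_of_ne_zero h0.ne'
  have hx : (D, r) ∈ range (B + 1) ×ˢ range (B + 1) :=
    mem_product.2 ⟨mem_range.2 (by omega), mem_range.2 (by omega)⟩
  have h1 : q D r ≤ p :=
    (single_le_sum (f := fun x : ℕ × ℕ => q x.1 x.2) (fun _ _ => Nat.zero_le _) hx).trans hp
  have h2 : C D r ≤ ∑ x ∈ range (B + 1) ×ˢ range (B + 1), C x.1 x.2 :=
    single_le_sum (f := fun x : ℕ × ℕ => C x.1 x.2) (fun _ _ => hC _ _) hx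
  obtain ⟨N, J, l, a1, a2, a3, a4⟩ := hq D r p h1
  have hD' : D + 1 = Fintype.card ι := hD.symm
  rw [hD'] at a1 a3 a4
  have h3 := a4 _ (sa_core (h.mono hm) γ hγ a1 a2 a3 S hS hζ)
  have h4 := mul_le_mul_of_nonneg_right h2 (Real.sqrt_nonneg (p : ℝ))
  linarith

end Vale.Agent.P042.S
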