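import Vale.Agent.P042.I.Defs
import Vale.Agent.P042.V.Defs

/-! # P042 Z/Defs: symmetric weights from the curve `H x + H y = 0` (FROZEN, owner helper37).
Overview: notes/P042A.md. -/

namespace Vale.Agent.P042.S

open Finset Polynomial

noncomputable section

/-- The point `(x, y)` lies on the curve `f`. -/
def On {K : Type} [Field K] (f : K[X][X]) (x y : K) : Prop :=
  (f.map (aeval x : K[X] →ₐ[K] K)).eval y = 0

/-- No critical value over `x`. -/
def Gd {K : Type} [Field K] (H : K[X]) (t x : K) : Prop := ∀ γ, (derivative H).eval γ = 0 →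
  H.eval γ ≠ -H.eval x ∧ H.eval γ ≠ H.eval x + t ∧ H.eval γ ≠ -(H.eval x + t)

variable {p : ℕ} [Fact p.Prime]

open Classical in
/-- The rational points of the curve. -/
def CP (f : (KK p)[X][X]) : Finset (ZMod p × ZMod p) :=
  univ.filter fun P => On f (algebraMap _ (KK p) P.1) (algebraMap _ (KK p) P.2)

open Classical in
/-- The rational points of the fibre product. -/
def CQ (H : (ZMod p)[X]) (f : (KK p)[X][X]) (t : ZMod p) :
    Finset ((ZMod p × ZMod p) × (ZMod p × ZMod p)) :=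
  (CP f ×ˢ CP f).filter fun R => H.eval R.2.1 = H.eval R.1.1 + t

/-- Bounded symmetric weights on noncritical values with small Fourier coefficients. -/
def SymG (H : (ZMod p)[X]) (C : ℝ) : Prop := 1 ≤ C ∧ ∃ ν : ZMod p → ℝ,
  (∀ v, 0 ≤ ν v ∧ ν v ≤ C) ∧ (∀ v, ν (-v) = ν v) ∧
  (∀ v, ν v ≠ 0 → ∃ x, H.eval x = v ∧ (derivative H).eval x ≠ 0) ∧ (p : ℝ) ≤ ∑ v, ν v ∧
  ∀ a : ZMod p, a ≠ 0 →
    ‖∑ v, (ν v : ℂ) * ZMod.stdAddChar (a * v)‖ ≤ C * (p : ℝ) ^ (3 / 4 : ℝ)

end

end Vale.Agent.P042.S
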