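import Vale.Agent.P042.Z.Sa0
import Vale.Agent.P042.Z.Cnt

/-! # P042 Z/PL (TASK; helper names end with _zpl): the lower bound for the points of the curve.
`B = (4 k + 10) k + k`, `sa_cnt B`, `p₀ > k`; `d = natDegree f`, `sa0`, `gam_ex`; `AdjoinRoot f` is a domain (`Irreducible.prime`, `AdjoinRoot.isDomain_of_prime`).  `G` = the `x : ZMod p` whose image is not in the set of `gd_ex` (`t = 0`, `der_ne`), `p - 3 k ^ 2 ≤ card G`.  For `x ∈ G` choose `T x` (`Fib`, `d` points over `x`); the sets `T x` are disjoint (`Fib.ov`), `U = G.biUnion T` has `d * card G` elements.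
`S = U.filter (π y ^ p ≠ π y)`: `card S ≤ (d - 1) p + C₀ √p` with `ζ s = (π y ^ p) ^ s` (`π (e j) ^ p = (π y ^ p) ^ j`, `hF`, `On f x (π y)` from `AdjoinRoot.eval₂_root`).  The rest of `U` injects into `CP f`: `π y ^ p = π y` gives `π y = algebraMap b` (`fix_mem`), and `π` is determined by `π (of f X)`, `π y` (`AdjoinRoot.algHom_ext'`, `Polynomial.algHom_ext`).  `C = C₀ + 3 k ^ 3`, `1 ≤ √p`. -/

namespace Vale.Agent.P042.S

open Finset Polynomial

theorem comp_zpl {K : Type} [Field K] {f : K[X][X]} (π : AdjoinRoot f →ₐ[K] K) :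
    (π : AdjoinRoot f →+* K).comp (AdjoinRoot.of f) =
      ((aeval (π (AdjoinRoot.of f X)) : K[X] →ₐ[K] K) : K[X] →+* K) :=
  congrArg AlgHom.toRingHom (Polynomial.algHom_ext (f := π.comp (AdjoinRoot.ofAlgHom K f))
    (g := aeval (π (AdjoinRoot.of f X))) (by simp))

theorem on_zpl {K : Type} [Field K] {f : K[X][X]} (π : AdjoinRoot f →ₐ[K] K) :
    On f (π (AdjoinRoot.of f X)) (π (AdjoinRoot.root f)) := by
  rw [On, eval_map, ← comp_zpl]
  have := hom_eval₂ f (AdjoinRoot.of f) (π : AdjoinRoot f →+* K) (AdjoinRoot.root f)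
  rw [AdjoinRoot.eval₂_root, map_zero] at this
  exact this.symm

theorem ext_zpl {K : Type} [Field K] {f : K[X][X]} {π π' : AdjoinRoot f →ₐ[K] K}
    (h1 : π (AdjoinRoot.of f X) = π' (AdjoinRoot.of f X))
    (h2 : π (AdjoinRoot.root f) = π' (AdjoinRoot.root f)) : π = π' :=
  AdjoinRoot.algHom_ext' (Polynomial.algHom_ext (by simpa using h1)) h2

theorem pl (k : ℕ) : ∃ (C₁ : ℝ) (p₀ : ℕ), 0 ≤ C₁ ∧ ∀ (p : ℕ) [Fact p.Prime], p₀ ≤ p →
    ∀ (H : (KK p)[X]) (f : (KK p)[X][X]), H.natDegree = k → Cv H f →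
      (∀ (x : ZMod p) (y : KK p), On f (algebraMap _ (KK p) x) y →
        On f (algebraMap _ (KK p) x) (y ^ p)) → (p : ℝ) - C₁ * √p ≤ (CP f).card := by
  classical
  obtain ⟨C₀, p₀, hC, hcnt⟩ := sa_cnt ((4 * k + 10) * k + k)
  refine ⟨C₀ + 3 * k ^ 3, max p₀ (k + 1), by positivity, fun p _ hp H f hk h hF => ?_⟩
  subst hk
  obtain ⟨d0, dk⟩ := h.deg
  obtain ⟨e, δ, hSA, he, hfib⟩ := sa0 h
  obtain ⟨γ, hγ, hγ'⟩ := gam_ex h he
  have : IsDomain (AdjoinRoot f) := AdjoinRoot.isDomain_of_prime h.irr.prime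
  obtain ⟨B, hB, hB'⟩ := gd_ex h.pos (der_ne (p := p) h.pos (le_of_max_le_right hp)) 0
  have inj : Function.Injective (algebraMap (ZMod p) (KK p)) := (algebraMap (ZMod p) (KK p)).injective
  obtain ⟨G, hG1, hG⟩ : ∃ G : Finset (ZMod p), (∀ x ∈ G, algebraMap _ (KK p) x ∉ B) ∧
      p ≤ G.card + 3 * H.natDegree ^ 2 := by
    refine ⟨univ.filter fun x => ¬ algebraMap _ (KK p) x ∈ B, fun x hx => (mem_filter.1 hx).2, ?_⟩
    have h1 := card_filter_add_card_filter_not (s := (univ : Finset (ZMod p)))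
      fun x => algebraMap _ (KK p) x ∈ B
    have h2 : (univ.filter fun x : ZMod p => algebraMap _ (KK p) x ∈ B).card ≤ B.card :=
      card_le_card_of_injOn (algebraMap _ (KK p)) (fun x hx => (mem_filter.1 hx).2) inj.injOn
    rw [card_univ, ZMod.card] at h1
    omega
  have hT : ∀ x : ZMod p, ∃ T, x ∈ G → Fib δ f.natDegree (algebraMap _ (KK p) x) T := fun x => by
    by_cases hx : x ∈ G
    · obtain ⟨T, hT⟩ := hfib _ fun c hc => (hB' _ (hG1 x hx) c hc).1
      exact ⟨T, fun _ => hT⟩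
    · exact ⟨∅, fun h => absurd h hx⟩
  choose T hT using hT
  have hU : (G.biUnion T).card = G.card * f.natDegree := by
    rw [card_biUnion, sum_congr rfl fun x hx => (hT x hx).card, sum_const, smul_eq_mul]
    intro x hx y hy hxy
    exact disjoint_left.2 fun π h1 h2 =>
      hxy (inj (((hT x hx).ov π h1).symm.trans ((hT y hy).ov π h2)))
  have hU' : ∀ π ∈ G.biUnion T, ∃ x ∈ G, π (AdjoinRoot.of f X) = algebraMap _ (KK p) x :=
    fun π hπ => by
      obtain ⟨x, hx, h1⟩ := mem_biUnion.1 hπ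
      exact ⟨x, hx, (hT x hx).ov π h1⟩
  generalize G.biUnion T = U at hU hU'
  have hc : Fintype.card (Unit × Fin f.natDegree) = f.natDegree := by simp
  have h1 := hcnt p (le_of_max_le_left hp) (AdjoinRoot f) (Unit × Fin f.natDegree) e δ _
    (f.natDegree - 1) (by omega) (by omega) (by omega) (by omega) hSA γ
    (fun j s => (hγ j s).mono (by omega))
    (U.filter fun π => ¬ π (AdjoinRoot.root f) ^ p = π (AdjoinRoot.root f))
    (fun π hπ => by
      obtain ⟨x, hx, h1⟩ := hU' π (mem_filter.1 hπ).1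
      exact ⟨x, h1, T x, by rw [hc]; exact hT x hx⟩)
    (fun π hπ => by
      obtain ⟨x, hx, h1⟩ := hU' π (mem_filter.1 hπ).1
      refine ⟨fun s => (π (AdjoinRoot.root f) ^ p) ^ s.val, fun j => ?_⟩
      rw [he, map_pow, pow_right_comm]
      refine hγ' π _ ?_ (mem_filter.1 hπ).2 j
      have h2 := on_zpl π
      rw [h1] at h2 ⊢
      exact hF x _ h2)
  have h2 : (U.filter fun π => π (AdjoinRoot.root f) ^ p = π (AdjoinRoot.root f)).card ≤
      (CP f).card := by
    refine le_trans (card_le_card_of_injOn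
      (fun π => (π (AdjoinRoot.of f X), π (AdjoinRoot.root f))) (fun π hπ => ?_)
      fun π _ π' _ hh => ext_zpl (congrArg Prod.fst hh) (congrArg Prod.snd hh))
      (card_image_le (s := CP f)
        (f := fun P => (algebraMap _ (KK p) P.1, algebraMap _ (KK p) P.2)))
    obtain ⟨x, -, h1⟩ := hU' π (mem_filter.1 hπ).1
    obtain ⟨y, hy⟩ := fix_mem (mem_filter.1 hπ).2
    refine mem_coe.2 (mem_image.2 ⟨(x, y), ?_, Prod.ext h1.symm hy⟩)
    have h2 := on_zpl π
    rw [h1, ← hy] at h2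
    exact mem_filter.2 ⟨mem_univ _, h2⟩
  have h3 := card_filter_add_card_filter_not (s := U)
    fun π => π (AdjoinRoot.root f) ^ p = π (AdjoinRoot.root f)
  have h4 : (1 : ℝ) ≤ √p := Real.one_le_sqrt.2 (by exact_mod_cast (Fact.out : p.Prime).one_le)
  rw [hU] at h3
  rw [Nat.cast_pred d0] at h1
  have a1 : (p : ℝ) ≤ G.card + 3 * (H.natDegree : ℝ) ^ 2 := by exact_mod_cast hG
  have a2 : (f.natDegree : ℝ) ≤ H.natDegree := by exact_mod_cast dk
  have a3 := (Nat.cast_le (α := ℝ)).2 h2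
  have a4 := congrArg (Nat.cast : ℕ → ℝ) h3
  rw [Nat.cast_add, Nat.cast_mul] at a4
  have a5 := mul_le_mul_of_nonneg_right a1 (Nat.cast_nonneg (α := ℝ) f.natDegree)
  have a6 := mul_le_mul_of_nonneg_left a2 (show (0 : ℝ) ≤ 3 * (H.natDegree : ℝ) ^ 2 by positivity)
  have a7 := mul_le_mul_of_nonneg_left h4 (show (0 : ℝ) ≤ 3 * (H.natDegree : ℝ) ^ 3 by positivity)
  linarith

end Vale.Agent.P042.S
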