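import Vale.Agent.P042.Z.Sa2
import Vale.Agent.P042.Z.Cnt
import Vale.Agent.P042.I.Dom

/-! # P042 Z/PU (TASK; helper names end with _zpu): the upper bound for the points of the fibre product.
`M` from `sa2 k`, `B = M + k ^ 3 + 1`, `sa_cnt B`; `p₀` above the bound of `dom`; `T` = the preimage in `ZMod p` of the set of `dom`.  For `t ∉ T` and `R ∈ CQ` choose the point `π R` by `pt_ex` (`M = K`; `aeval_algebraMap_apply`, `aeval_map_algebraMap`, `eval_map_algebraMap`, `coe_aeval_eq_eval`); `R ↦ π R` is injective.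
For the `R` with `R.1.1` outside the set of `gd_ex` (`der_ne`): `sa_cnt` with `r = 1`, `γ j _ = e j` (`fil_basis`, `Fil.mono`), `ζ = 1` (`map_mul`, `map_pow`, `ZMod.pow_card`), `algebraMap K[X] (A2 H f t) X = cX`.  For the others: at most `3 k ^ 2` values of `R.1.1`, then at most `k` values for each of `R.1.2` (`Cv.fib`), `R.2.1` (`val_card`), `R.2.2` (`Cv.fib`); e.g. `card_le_mul_card_image`, three times.  `C = C₀ + 3 k ^ 5 + 4 k ^ 2 + 1`. -/

namespace Vale.Agent.P042.S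

open Finset Polynomial

section

variable {p : ℕ} [Fact p.Prime] {H₀ : (ZMod p)[X]} {f : (KK p)[X][X]}

open Classical in
theorem pre_zpu (T : Finset (KK p)) :
    (univ.filter fun t => algebraMap (ZMod p) (KK p) t ∈ T).card ≤ T.card :=
  card_le_card_of_injOn (algebraMap (ZMod p) (KK p)) (fun _ ht => (mem_filter.1 ht).2)
    (algebraMap (ZMod p) (KK p)).injective.injOn

theorem mem_zpu {t : ZMod p} {R : (ZMod p × ZMod p) × (ZMod p × ZMod p)} (hR : R ∈ CQ H₀ f t) :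
    On f (algebraMap _ (KK p) R.1.1) (algebraMap _ (KK p) R.1.2) ∧
      On f (algebraMap _ (KK p) R.2.1) (algebraMap _ (KK p) R.2.2) ∧
      H₀.eval R.2.1 = H₀.eval R.1.1 + t := by
  simp only [CQ, CP, mem_filter, mem_product, mem_univ, true_and] at hR
  exact ⟨hR.1.1, hR.1.2, hR.2⟩

theorem bad_zpu (h : Cv (H₀.map (algebraMap (ZMod p) (KK p))) f) (t : ZMod p)
    (X : Finset (ZMod p)) (U : Finset ((ZMod p × ZMod p) × (ZMod p × ZMod p)))
    (hU : U ⊆ CQ H₀ f t) (hX : ∀ R ∈ U, R.1.1 ∈ X) :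
    U.card ≤ X.card * (H₀.natDegree * (H₀.natDegree * H₀.natDegree)) := by
  classical
  have h0 : 0 < H₀.natDegree := by
    have h1 := h.pos
    rwa [natDegree_map] at h1
  obtain ⟨Y, hY⟩ : ∃ Y : ZMod p → Finset (ZMod p), ∀ x y, y ∈ Y x ↔
      On f (algebraMap _ (KK p) x) (algebraMap _ (KK p) y) :=
    ⟨fun x => univ.filter fun y => On f (algebraMap _ (KK p) x) (algebraMap _ (KK p) y),
      fun x y => by simp⟩
  obtain ⟨Z, hZ⟩ : ∃ Z : ZMod p → Finset (ZMod p), ∀ x z, z ∈ Z x ↔ H₀.eval z = H₀.eval x + t :=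
    ⟨fun x => univ.filter fun z => H₀.eval z = H₀.eval x + t, fun x z => by simp⟩
  have cY : ∀ x, (Y x).card ≤ H₀.natDegree := fun x => by
    have h1 := h.fib (x := algebraMap _ (KK p) x) (S := (Y x).image (algebraMap _ (KK p)))
      fun y hy => by
        obtain ⟨y', h2, rfl⟩ := mem_image.1 hy
        exact (hY x y').1 h2
    rwa [card_image_of_injective _ (algebraMap (ZMod p) (KK p)).injective, natDegree_map] at h1
  have cZ : ∀ x, (Z x).card ≤ H₀.natDegree := fun x =>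
    val_card h0 (H₀.eval x + t) fun z hz => (hZ x z).1 hz
  have hs : U ⊆ X.biUnion fun x => (Y x).biUnion fun y => (Z x).biUnion fun z =>
      (Y z).image fun w => ((x, y), (z, w)) := fun R hR => by
    obtain ⟨a1, a2, a3⟩ := mem_zpu (hU hR)
    exact mem_biUnion.2 ⟨R.1.1, hX R hR, mem_biUnion.2 ⟨R.1.2, (hY _ _).2 a1, mem_biUnion.2
      ⟨R.2.1, (hZ _ _).2 a3, mem_image.2 ⟨R.2.2, (hY _ _).2 a2, rfl⟩⟩⟩⟩
  refine (card_le_card hs).trans (card_biUnion_le_card_mul _ _ _ fun x _ => ?_)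
  refine (card_biUnion_le_card_mul _ _ (H₀.natDegree * H₀.natDegree) fun y _ => ?_).trans
    (Nat.mul_le_mul_right _ (cY x))
  exact (card_biUnion_le_card_mul _ _ H₀.natDegree fun z _ => card_image_le.trans (cY z)).trans
    (Nat.mul_le_mul_right _ (cZ x))

theorem ev_zpu (H₀ : (ZMod p)[X]) (x : ZMod p) :
    aeval (algebraMap (ZMod p) (KK p) x) (H₀.map (algebraMap (ZMod p) (KK p))) =
      algebraMap (ZMod p) (KK p) (H₀.eval x) := by
  rw [coe_aeval_eq_eval, eval_map_algebraMap, aeval_algebraMap_apply_eq_algebraMap_eval]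

theorem pts_zpu {t : ZMod p} (V : Finset ((ZMod p × ZMod p) × (ZMod p × ZMod p)))
    (hV : V ⊆ CQ H₀ f t) :
    ∃ S : Finset (A2 (H₀.map (algebraMap (ZMod p) (KK p))) f (algebraMap _ _ t) →ₐ[KK p] KK p),
      S.card = V.card ∧ ∀ π ∈ S, ∃ R ∈ V, π (cX _ f _) = algebraMap _ _ R.1.1 ∧
        π (cY _ f _) = algebraMap _ _ R.1.2 ∧ π (cZ _ f _) = algebraMap _ _ R.2.1 ∧
        π (cW _ f _) = algebraMap _ _ R.2.2 := by
  have key : ∀ R : V,
      ∃ π : A2 (H₀.map (algebraMap (ZMod p) (KK p))) f (algebraMap _ _ t) →ₐ[KK p] KK p,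
        π (cX _ f _) = algebraMap _ _ R.1.1.1 ∧ π (cY _ f _) = algebraMap _ _ R.1.1.2 ∧
        π (cZ _ f _) = algebraMap _ _ R.1.2.1 ∧ π (cW _ f _) = algebraMap _ _ R.1.2.2 := fun R => by
    obtain ⟨a1, a2, a3⟩ := mem_zpu (hV R.2)
    refine pt_ex a1 ?_ a2
    rw [ev_zpu, ev_zpu, a3, map_add]
    rfl
  choose π hπ using key
  have hi := (algebraMap (ZMod p) (KK p)).injective
  have hinj : Function.Injective π := fun R R' e => by
    obtain ⟨a1, a2, a3, a4⟩ := hπ R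
    obtain ⟨b1, b2, b3, b4⟩ := hπ R'
    rw [e] at a1 a2 a3 a4
    exact Subtype.ext (Prod.ext (Prod.ext (hi (a1.symm.trans b1)) (hi (a2.symm.trans b2)))
      (Prod.ext (hi (a3.symm.trans b3)) (hi (a4.symm.trans b4))))
  refine ⟨univ.map ⟨π, hinj⟩, by rw [card_map, card_univ, Fintype.card_coe], fun π' h => ?_⟩
  obtain ⟨R, -, rfl⟩ := mem_map.1 h
  exact ⟨R.1, R.2, hπ R⟩

end

theorem pu (k : ℕ) : ∃ (C₁ : ℝ) (p₀ : ℕ), 0 ≤ C₁ ∧ ∀ (p : ℕ) [Fact p.Prime], p₀ ≤ p →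
    ∀ (H₀ : (ZMod p)[X]) (f : (KK p)[X][X]), H₀.natDegree = k →
      Cv (H₀.map (algebraMap (ZMod p) (KK p))) f → ∃ T : Finset (ZMod p), (T.card : ℝ) ≤ C₁ ∧
        ∀ t ∉ T, ((CQ H₀ f t).card : ℝ) ≤ p + C₁ * √p := by
  classical
  obtain ⟨M, hM⟩ := sa2 k
  obtain ⟨C₀, p₁, hC, hcnt⟩ := sa_cnt (M + k ^ 3 + 1)
  refine ⟨C₀ + 3 * k ^ 5 + 4 * k ^ 2 + 1,
    p₁ + ((4 * k).factorial + 1) * (k * (2 * k + 2)) + k + 1, by positivity, ?_⟩
  intro p _ hp H₀ f hk h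
  have hk' : (H₀.map (algebraMap (ZMod p) (KK p))).natDegree = k := by rw [natDegree_map, hk]
  obtain ⟨T, hT, hdom⟩ := dom (p := p) h (by rw [hk']; omega)
  rw [hk'] at hT
  refine ⟨univ.filter fun t => algebraMap (ZMod p) (KK p) t ∈ T, ?_, fun t ht => ?_⟩
  · have h1 : (((univ.filter fun t => algebraMap (ZMod p) (KK p) t ∈ T).card : ℕ) : ℝ) ≤
        ((4 * k ^ 2 + 1 : ℕ) : ℝ) := Nat.cast_le.2 ((pre_zpu T).trans hT)
    push_cast at h1
    have h2 : (0 : ℝ) ≤ 3 * (k : ℝ) ^ 5 := by positivity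
    linarith
  have hd : IsDomain (A2 (H₀.map (algebraMap (ZMod p) (KK p))) f (algebraMap _ _ t)) :=
    hdom _ fun h1 => ht (mem_filter.2 ⟨mem_univ _, h1⟩)
  obtain ⟨B, hB, hgd⟩ := gd_ex h.pos (der_ne (p := p) h.pos (by rw [hk']; omega))
    (algebraMap (ZMod p) (KK p) t)
  rw [hk'] at hB
  obtain ⟨e, δ, hsa, he, hfib⟩ := hM (KK p) _ f (algebraMap (ZMod p) (KK p) t) hk' h
  obtain ⟨S, hS, hπ⟩ := pts_zpu (H₀ := H₀) (f := f) (t := t)
    ((CQ H₀ f t).filter fun R => algebraMap (ZMod p) (KK p) R.1.1 ∉ B) (filter_subset _ _)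
  obtain ⟨d0, d1⟩ := h.deg
  have k0 := h.pos
  rw [hk'] at d1 k0
  have hc : Fintype.card (((Unit × Fin f.natDegree) × Fin k) × Fin f.natDegree) =
      f.natDegree * k * f.natDegree := by simp
  have h3 := hcnt p (by omega) _ _ e δ M 1 (by rw [hc]; positivity)
    (by
      rw [hc]
      have h4 : f.natDegree * k * f.natDegree ≤ k * k * k :=
        Nat.mul_le_mul (Nat.mul_le_mul d1 le_rfl) d1
      have h5 : k * k * k = k ^ 3 := by ring
      omega) (by omega) (by omega) hsa (fun j _ => e j)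
    (fun j _ => (fil_basis j).mono (Nat.zero_le _)) S
    (fun π h4 => by
      obtain ⟨R, hR, a1, -⟩ := hπ π h4
      exact ⟨R.1.1, a1, hfib _ (hgd _ (mem_filter.1 hR).2)⟩)
    (fun π h4 => by
      obtain ⟨R, -, -, a2, a3, a4⟩ := hπ π h4
      refine ⟨fun _ => 1, fun j => ?_⟩
      obtain ⟨a, b, c, h5⟩ := he j
      rw [Fin.sum_univ_one, mul_one, h5, map_mul, map_mul, map_pow, map_pow, map_pow, a2, a3, a4,
        ← map_pow, ← map_pow, ← map_pow, ← map_mul, ← map_mul, ← map_pow, ZMod.pow_card])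
  have h4 := bad_zpu h t (univ.filter fun x => algebraMap (ZMod p) (KK p) x ∈ B)
    ((CQ H₀ f t).filter fun R => algebraMap (ZMod p) (KK p) R.1.1 ∈ B) (filter_subset _ _)
    fun R hR => mem_filter.2 ⟨mem_univ _, (mem_filter.1 hR).2⟩
  rw [hk] at h4
  have h5 := card_filter_add_card_filter_not (s := CQ H₀ f t)
    fun R => algebraMap (ZMod p) (KK p) R.1.1 ∈ B
  have h6 : (CQ H₀ f t).card ≤ 3 * k ^ 5 + S.card := by
    have h7 := Nat.mul_le_mul_right (k * (k * k)) ((pre_zpu B).trans hB)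
    have h8 : 3 * k ^ 2 * (k * (k * k)) = 3 * k ^ 5 := by ring
    omega
  have h7 : ((CQ H₀ f t).card : ℝ) ≤ 3 * (k : ℝ) ^ 5 + S.card := by exact_mod_cast h6
  have h8 : (1 : ℝ) ≤ √p := Real.one_le_sqrt.2 (by exact_mod_cast (by omega : 1 ≤ p))
  have h9 : (3 * (k : ℝ) ^ 5 + 4 * k ^ 2 + 1) * 1 ≤ (3 * (k : ℝ) ^ 5 + 4 * k ^ 2 + 1) * √p :=
    mul_le_mul_of_nonneg_left h8 (by positivity)
  have h10 : (0 : ℝ) ≤ 4 * (k : ℝ) ^ 2 := by positivity
  push_cast at h3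
  nlinarith

end Vale.Agent.P042.S
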