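import Vale.Agent.P042.Z.Defs

/-! # P042 Z/Vdc (TASK; helper names end with _zvd): van der Corput with upper bounds only.
`A t = ∑ v, ν v * ν (v + t)`, `U = p + B √p`, `‖∑ ν ψ‖ ^ 2 = ∑ t, A t * ψ (a t) = ∑ t, (A t - U) * ψ (a t)` (`Complex.mul_conj`, `AddChar.map_neg_eq_conj`, `Equiv.sum_comp (Equiv.addLeft v)`, `AddChar.sum_mulShift` with `ZMod.isPrimitive_stdAddChar`; compare K/Twist.lean), `∑ t, A t = (∑ ν) ^ 2 ≥ (p - B √p) ^ 2`, `0 ≤ A t ≤ B ^ 2 p`, `|A t - U| ≤ U - A t + 2 B ^ 2 p` on `T`.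
So the square is at most `p U - (p - B √p) ^ 2 + 2 B ^ 3 p ≤ 5 B ^ 3 p √p ≤ (3 B ^ 2 p ^ (3 / 4)) ^ 2`. -/

namespace Vale.Agent.P042.S

open Finset Polynomial

theorem vdc_up {p : ℕ} [Fact p.Prime] {ν : ZMod p → ℝ} {B : ℝ} (hB : 1 ≤ B) (hp : B ≤ √p)
    (h0 : ∀ v, 0 ≤ ν v ∧ ν v ≤ B) (hs : (p : ℝ) - B * √p ≤ ∑ v, ν v) {T : Finset (ZMod p)}
    (hT : (T.card : ℝ) ≤ B) (hA : ∀ t ∉ T, ∑ v, ν v * ν (v + t) ≤ p + B * √p) {a : ZMod p}
    (ha : a ≠ 0) :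
    ‖∑ v, (ν v : ℂ) * ZMod.stdAddChar (a * v)‖ ≤ 3 * B ^ 2 * (p : ℝ) ^ (3 / 4 : ℝ) := by
  classical
  have hp1 : (1 : ℝ) ≤ p := by exact_mod_cast (Fact.out : p.Prime).one_le
  obtain ⟨A, hAe⟩ : ∃ A : ZMod p → ℝ, A = fun t => ∑ v, ν v * ν (v + t) := ⟨_, rfl⟩
  obtain ⟨U, hU⟩ : ∃ U : ℝ, U = p + B * √p := ⟨_, rfl⟩
  have hq : √(p : ℝ) * √p = p := Real.mul_self_sqrt (by linarith)
  have hq1 : 1 ≤ √(p : ℝ) := hB.trans hp
  have h1 : ∑ t : ZMod p, ZMod.stdAddChar (a * t) = 0 := by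
    have := AddChar.sum_mulShift a (ZMod.isPrimitive_stdAddChar p)
    simpa [ha, mul_comm] using this
  have h2 : ((‖∑ v, (ν v : ℂ) * ZMod.stdAddChar (a * v)‖ ^ 2 : ℝ) : ℂ) =
      ∑ t, ((A t - U : ℝ) : ℂ) * ZMod.stdAddChar (a * t) := by
    rw [← Complex.normSq_eq_norm_sq, ← Complex.mul_conj, mul_comm, map_sum, sum_mul_sum]
    simp only [hAe, Complex.ofReal_sub, sub_mul, sum_sub_distrib, ← mul_sum, h1, mul_zero, sub_zero,
      Complex.ofReal_sum, sum_mul]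
    refine Eq.trans (sum_congr rfl fun v _ => ?_) sum_comm
    rw [mul_sum, ← Equiv.sum_comp (Equiv.addLeft v)]
    refine sum_congr rfl fun t _ => ?_
    rw [map_mul, Complex.conj_ofReal, ← AddChar.map_neg_eq_conj, Equiv.coe_addLeft, mul_add,
      AddChar.map_add_eq_mul, Complex.ofReal_mul]
    have h3 : ZMod.stdAddChar (-(a * v)) * ZMod.stdAddChar (a * v) = 1 := by
      rw [← AddChar.map_add_eq_mul, neg_add_cancel, AddChar.map_zero_eq_one]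
    linear_combination (ν v * ν (v + t) * ZMod.stdAddChar (a * t) : ℂ) * h3
  have h3 : ‖∑ v, (ν v : ℂ) * ZMod.stdAddChar (a * v)‖ ^ 2 ≤ ∑ t, |A t - U| := by
    have h4 := congrArg norm h2
    rw [Complex.norm_real, Real.norm_of_nonneg (sq_nonneg _)] at h4
    rw [h4]
    refine (norm_sum_le _ _).trans (sum_le_sum fun t _ => ?_)
    rw [norm_mul, Complex.norm_real, Real.norm_eq_abs, AddChar.norm_apply, mul_one]
  have h4 : ∑ t, A t = (∑ v, ν v) ^ 2 := by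
    rw [hAe, sum_comm, sq, sum_mul]
    refine sum_congr rfl fun v _ => ?_
    rw [← mul_sum]
    exact congrArg _ (Equiv.sum_comp (Equiv.addLeft v) ν)
  have h5 : ∀ t, 0 ≤ A t ∧ A t ≤ B ^ 2 * p := fun t => by
    rw [hAe]
    refine ⟨sum_nonneg fun v _ => mul_nonneg (h0 _).1 (h0 _).1, ?_⟩
    refine (sum_le_card_nsmul _ _ (B ^ 2) fun v _ => ?_).trans_eq ?_
    · rw [sq]
      exact mul_le_mul (h0 _).2 (h0 _).2 (h0 _).1 (by linarith)
    · rw [card_univ, ZMod.card, nsmul_eq_mul, mul_comm]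
  have hU0 : 0 ≤ U := by rw [hU]; positivity
  have h6 : ∀ t, |A t - U| ≤ U - A t + if t ∈ T then 2 * B ^ 2 * p else 0 := fun t => by
    split_ifs with ht
    · exact abs_le.2 ⟨by nlinarith [h5 t], by nlinarith [h5 t]⟩
    · have h7 : A t ≤ U := by rw [hAe, hU]; exact hA t ht
      rw [abs_of_nonpos (by linarith)]
      linarith
  have h7 := h3.trans (sum_le_sum fun t _ => h6 t)
  rw [sum_add_distrib, sum_sub_distrib, h4, sum_ite_mem, univ_inter, sum_const, sum_const, card_univ,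
    ZMod.card, nsmul_eq_mul, nsmul_eq_mul, hU] at h7
  have h8 : ((p : ℝ) - B * √p) ^ 2 ≤ (∑ v, ν v) ^ 2 :=
    pow_le_pow_left₀ (by nlinarith) hs 2
  have h9 : ((p : ℝ) ^ (3 / 4 : ℝ)) ^ 2 = p * √p := by
    rw [← Real.rpow_natCast, ← Real.rpow_mul (by linarith), Real.sqrt_eq_rpow,
      ← Real.rpow_one_add' (by linarith) (by norm_num)]
    norm_num
  refine (sq_le_sq₀ (norm_nonneg _) (by positivity)).1 ?_
  rw [mul_pow, h9]
  have h10 : (T.card : ℝ) * (2 * B ^ 2 * p) ≤ B * (2 * B ^ 2 * p) :=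
    mul_le_mul_of_nonneg_right hT (by positivity)
  generalize √(p : ℝ) = s at *
  have b1 : B ≤ B ^ 4 := le_self_pow₀ hB (by norm_num)
  have b2 : B ^ 3 ≤ B ^ 4 := pow_le_pow_right₀ hB (by norm_num)
  have b3 : B * (p * s) ≤ B ^ 4 * (p * s) := mul_le_mul_of_nonneg_right b1 (by positivity)
  have b4 : B ^ 3 * p ≤ B ^ 4 * (p * s) :=
    mul_le_mul b2 (le_mul_of_one_le_right (by linarith) hq1) (by linarith) (by positivity)
  have b5 : 0 ≤ B ^ 4 * (p * s) := by positivity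
  nlinarith [sq_nonneg (B * s)]

end Vale.Agent.P042.S
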