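import Vale.Agent.P042.Z.CPa
import Vale.Agent.P042.Z.PL
import Vale.Agent.P042.Z.PU
import Vale.Agent.P042.Z.Vdc

/-! # P042 Z/SymW (TASK; helper names end with _zsw): the symmetric weights.
`f` from `cp_ex`, `P₁ = (CP f).filter (H' P.1 ≠ 0 ∧ H' P.2 ≠ 0)`, `ν₁ v = card (P₁.filter (H P.1 = v))`, `ν v = ν₁ v + ν₁ (-v)`.  On `CP f`: `H P.2 = -H P.1` (`Cv.val`, injectivity of `algebraMap`).  `ν₁ v ≤ k ^ 2`: both coordinates are solutions of `H = ± v` (`val_card` over `ZMod p`, `card_product`).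
`card (CP f) ≤ card P₁ + 2 k ^ 2` (a critical coordinate has at most `k` values: `der_ne`, `card_roots'`; the other one solves `H = c`).  `∑ ν₁ = card P₁` (`card_eq_sum_card_fiberwise`), `∑ v, ν₁ v * ν₁ (v + t) ≤ card (CQ H f t)`.  `B = C₁ + C₂ + 2 k ^ 2 + 1`, `p ≥ 4 B ^ 2`, `vdc_up` for `a` and `-a` (`Equiv.sum_comp (Equiv.neg _)`), `C = 6 B ^ 2`, `∑ ν = 2 ∑ ν₁ ≥ 2 (p - B √p) ≥ p`. -/

namespace Vale.Agent.P042.S

open Finset Polynomial

theorem crit_zsw {F ι : Type} [Field F] {H : F[X]} (h0 : 0 < H.natDegree) (h1 : derivative H ≠ 0)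
    (Q : Finset ι) (x y : ι → F) (hi : ∀ P P', x P = x P' → y P = y P' → P = P')
    (hv : ∀ P ∈ Q, H.eval (y P) = -H.eval (x P)) (hc : ∀ P ∈ Q, (derivative H).eval (x P) = 0) :
    Q.card ≤ H.natDegree ^ 2 := by
  classical
  have e1 : Q.card ≤ H.natDegree * (Q.image x).card := by
    refine card_le_mul_card_image Q _ fun a _ => ?_
    rw [← card_image_of_injOn (f := y) fun P hP P' hP' he =>
      hi P P' ((mem_filter.1 hP).2.trans (mem_filter.1 hP').2.symm) he]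
    refine val_card h0 (-H.eval a) fun b hb => ?_
    obtain ⟨P, hP, rfl⟩ := mem_image.1 hb
    rw [mem_filter] at hP
    rw [hv P hP.1, hP.2]
  have e2 : (Q.image x).card ≤ H.natDegree := by
    refine (card_le_card (t := (derivative H).roots.toFinset) fun a ha => ?_).trans
      ((Multiset.toFinset_card_le _).trans ((card_roots' _).trans
        ((natDegree_derivative_le _).trans (Nat.sub_le _ _))))
    obtain ⟨P, hP, rfl⟩ := mem_image.1 ha
    exact Multiset.mem_toFinset.2 ((mem_roots h1).2 (hc P hP))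
  rw [pow_two]
  exact e1.trans (Nat.mul_le_mul_left _ e2)

theorem fib_zsw {p : ℕ} [Fact p.Prime] {H : (ZMod p)[X]} (h0 : 0 < H.natDegree)
    {Q : Finset (ZMod p × ZMod p)} (hv : ∀ P ∈ Q, H.eval P.2 = -H.eval P.1) (v : ZMod p) :
    (Q.filter fun P => H.eval P.1 = v).card ≤ H.natDegree ^ 2 := by
  refine (card_le_card (t := (univ.filter fun x => H.eval x = v) ×ˢ
    univ.filter fun y => H.eval y = -v) fun P hP => ?_).trans ?_
  · rw [mem_filter] at hP
    exact mem_product.2 ⟨mem_filter.2 ⟨mem_univ _, hP.2⟩,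
      mem_filter.2 ⟨mem_univ _, by rw [hv P hP.1, hP.2]⟩⟩
  · rw [card_product, pow_two]
    exact Nat.mul_le_mul (val_card h0 v fun y hy => (mem_filter.1 hy).2)
      (val_card h0 (-v) fun y hy => (mem_filter.1 hy).2)

theorem cor_zsw {p : ℕ} [Fact p.Prime] (H : (ZMod p)[X]) {f : (KK p)[X][X]}
    {Q : Finset (ZMod p × ZMod p)} (hQ : Q ⊆ CP f) (t : ZMod p) :
    ∑ v, (Q.filter fun P => H.eval P.1 = v).card * (Q.filter fun P => H.eval P.1 = v + t).card ≤
      (CQ H f t).card := by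
  rw [card_eq_sum_card_fiberwise (s := CQ H f t) (t := univ) (f := fun R => H.eval R.1.1)
    fun _ _ => mem_coe.2 (mem_univ _)]
  refine sum_le_sum fun v _ => ?_
  rw [← card_product]
  refine card_le_card fun R hR => ?_
  simp only [mem_product, mem_filter] at hR
  refine mem_filter.2 ⟨?_, hR.1.2⟩
  unfold CQ
  simp only [mem_product, mem_filter]
  exact ⟨⟨hQ hR.1.1, hQ hR.2.1⟩, by rw [hR.2.2, hR.1.2]⟩

theorem val_zsw {p : ℕ} [Fact p.Prime] {H : (ZMod p)[X]} {f : (KK p)[X][X]}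
    (hf : Cv (H.map (algebraMap (ZMod p) (KK p))) f) {P : ZMod p × ZMod p} (hP : P ∈ CP f) :
    H.eval P.2 = -H.eval P.1 := by
  unfold CP at hP
  simp only [mem_filter] at hP
  have h := hf.val (M := KK p) hP.2
  rw [aeval_map_algebraMap, aeval_map_algebraMap, aeval_algebraMap_apply, aeval_algebraMap_apply,
    ← map_neg, coe_aeval_eq_eval, coe_aeval_eq_eval] at h
  exact (algebraMap (ZMod p) (KK p)).injective h

theorem sym_zsw {p : ℕ} [Fact p.Prime] {H : (ZMod p)[X]} {μ : ZMod p → ℝ} {B : ℝ} (hB : 1 ≤ B)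
    (hp : 2 * B ≤ √p) (h0 : ∀ v, 0 ≤ μ v ∧ μ v ≤ B) (hs : (p : ℝ) - B * √p ≤ ∑ v, μ v)
    {T : Finset (ZMod p)} (hT : (T.card : ℝ) ≤ B)
    (hA : ∀ t ∉ T, ∑ v, μ v * μ (v + t) ≤ p + B * √p)
    (hx : ∀ v, μ v ≠ 0 → (∃ x, H.eval x = v ∧ (derivative H).eval x ≠ 0) ∧
      ∃ x, H.eval x = -v ∧ (derivative H).eval x ≠ 0) : SymG H (6 * B ^ 2) := by
  refine ⟨by nlinarith, fun v => μ v + μ (-v), fun v => ⟨add_nonneg (h0 _).1 (h0 _).1, ?_⟩,
    fun v => by simp only [neg_neg, add_comm], fun v hv => ?_, ?_, fun a ha => ?_⟩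
  · nlinarith [(h0 v).2, (h0 (-v)).2]
  · by_cases hc : μ v = 0
    · have hv' : μ (-v) ≠ 0 := fun h => hv (by simp only [hc, h, add_zero])
      simpa only [neg_neg] using (hx _ hv').2
    · exact (hx v hc).1
  · have e : ∑ v, μ (-v) = ∑ v, μ v := Equiv.sum_comp (Equiv.neg _) μ
    rw [sum_add_distrib, e]
    have h1 : √p * √p = (p : ℝ) := Real.mul_self_sqrt (Nat.cast_nonneg p)
    nlinarith [mul_le_mul_of_nonneg_right hp (Real.sqrt_nonneg (p : ℝ))]
  · have hp' : B ≤ √p := by linarith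
    have b1 := vdc_up hB hp' h0 hs hT hA ha
    have b2 := vdc_up hB hp' h0 hs hT hA (neg_ne_zero.2 ha)
    have e : ∑ v, (μ (-v) : ℂ) * ZMod.stdAddChar (a * v) =
        ∑ v, (μ v : ℂ) * ZMod.stdAddChar (-a * v) := by
      rw [← Equiv.sum_comp (Equiv.neg _) fun v => (μ v : ℂ) * ZMod.stdAddChar (-a * v)]
      simp only [Equiv.neg_apply, neg_mul_neg]
    simp only [Complex.ofReal_add, add_mul, sum_add_distrib]
    rw [e]
    refine (norm_add_le _ _).trans ?_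
    linarith

theorem symG_all (k : ℕ) (hk : 0 < k) : ∃ (C₁ : ℝ) (p₀ : ℕ), ∀ (p : ℕ) [Fact p.Prime], p₀ ≤ p →
    ∀ H : (ZMod p)[X], H.natDegree = k → ∀ ρ, H.eval ρ = 0 → (derivative H).eval ρ ≠ 0 →
      SymG H C₁ := by
  obtain ⟨C₁, p₁, c1, h1⟩ := pl k
  obtain ⟨C₂, p₂, c2, h2⟩ := pu k
  obtain ⟨B, hB⟩ : ∃ B : ℝ, B = C₁ + C₂ + 2 * (k : ℝ) ^ 2 + 1 := ⟨_, rfl⟩
  have k2 : (0 : ℝ) ≤ (k : ℝ) ^ 2 := sq_nonneg _
  have B1 : 1 ≤ B := by linarith
  refine ⟨6 * B ^ 2, max (max p₁ p₂) ⌈(2 * B) ^ 2⌉₊, fun p _ hp H hH ρ r0 r1 => ?_⟩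
  rw [max_le_iff, max_le_iff, Nat.ceil_le] at hp
  have hs : 2 * B ≤ √p := Real.le_sqrt_of_sq_le hp.2
  have h0 : 0 < H.natDegree := by rw [hH]; exact hk
  have hd : derivative H ≠ 0 := fun h => r1 (by rw [h, eval_zero])
  obtain ⟨f, hf, hF⟩ := cp_ex h0 r0 r1
  have l1 := h1 p hp.1.1 _ f (by rw [natDegree_map, hH]) hf hF
  obtain ⟨T, t1, t2⟩ := h2 p hp.1.2 H f hH hf
  obtain ⟨Q, hQ⟩ : ∃ Q : Finset (ZMod p × ZMod p), Q = (CP f).filter fun P =>
    (derivative H).eval P.1 ≠ 0 ∧ (derivative H).eval P.2 ≠ 0 := ⟨_, rfl⟩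
  have q1 : Q ⊆ CP f := by rw [hQ]; exact filter_subset _ _
  have q2 : (CP f).card ≤ Q.card + (k ^ 2 + k ^ 2) := by
    have a1 := crit_zsw h0 hd ((CP f).filter fun P => (derivative H).eval P.1 = 0) Prod.fst Prod.snd
      (fun _ _ => Prod.ext) (fun P hP => val_zsw hf (mem_filter.1 hP).1) fun P hP =>
        (mem_filter.1 hP).2
    have a2 := crit_zsw h0 hd ((CP f).filter fun P => (derivative H).eval P.2 = 0) Prod.snd Prod.fst
      (fun _ _ a b => Prod.ext b a)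
      (fun P hP => by rw [val_zsw hf (mem_filter.1 hP).1, neg_neg]) fun P hP => (mem_filter.1 hP).2
    rw [hH] at a1 a2
    refine (card_le_card (t := Q ∪ (((CP f).filter fun P => (derivative H).eval P.1 = 0) ∪
      (CP f).filter fun P => (derivative H).eval P.2 = 0)) fun P hP => ?_).trans
      ((card_union_le _ _).trans (Nat.add_le_add_left ((card_union_le _ _).trans
        (Nat.add_le_add a1 a2)) _))
    rw [hQ, mem_union, mem_union, mem_filter, mem_filter, mem_filter]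
    by_cases b1 : (derivative H).eval P.1 = 0
    · exact Or.inr (Or.inl ⟨hP, b1⟩)
    by_cases b2 : (derivative H).eval P.2 = 0
    · exact Or.inr (Or.inr ⟨hP, b2⟩)
    exact Or.inl ⟨hP, b1, b2⟩
  have q3 : ((CP f).card : ℝ) ≤ Q.card + ((k : ℝ) ^ 2 + (k : ℝ) ^ 2) := by exact_mod_cast q2
  have q4 : Q.card = ∑ v, (Q.filter fun P => H.eval P.1 = v).card :=
    card_eq_sum_card_fiberwise (s := Q) (t := univ) (f := fun P => H.eval P.1) fun _ _ =>
      mem_coe.2 (mem_univ _)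
  have s1 : 1 ≤ √p := by linarith
  refine sym_zsw (μ := fun v => ((Q.filter fun P => H.eval P.1 = v).card : ℝ)) B1 hs
    (fun v => ⟨Nat.cast_nonneg _, ?_⟩) ?_ (T := T) (by linarith) (fun t ht => ?_) fun v hv => ?_
  · have a := fib_zsw h0 (fun P hP => val_zsw hf (q1 hP)) v
    rw [hH] at a
    have a' : ((Q.filter fun P => H.eval P.1 = v).card : ℝ) ≤ (k : ℝ) ^ 2 := by exact_mod_cast a
    linarith
  · rw [← Nat.cast_sum, ← q4, hB]
    nlinarith [mul_le_mul_of_nonneg_left s1 k2, mul_nonneg c2 (Real.sqrt_nonneg (p : ℝ))]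
  · have a : ((∑ v, (Q.filter fun P => H.eval P.1 = v).card *
        (Q.filter fun P => H.eval P.1 = v + t).card : ℕ) : ℝ) ≤ (CQ H f t).card :=
      Nat.cast_le.2 (cor_zsw H q1 t)
    push_cast at a
    have a' : C₂ * √p ≤ B * √p := mul_le_mul_of_nonneg_right (by linarith) (Real.sqrt_nonneg _)
    linarith [t2 t ht]
  · obtain ⟨P, hP⟩ := card_ne_zero.1 (Nat.cast_ne_zero.1 hv)
    rw [mem_filter] at hP
    have a := hP.1
    rw [hQ, mem_filter] at a
    exact ⟨⟨P.1, hP.2, a.2.1⟩, P.2, by rw [val_zsw hf a.1, hP.2], a.2.2⟩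

end Vale.Agent.P042.S
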