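import Vale.Agent.P042.Z.Defs

/-! # P042 Z/Srp (TASK; helper names end with _zsr): simple roots modulo almost all primes.
`srp_sqf`: over `ℚ` squarefree means separable (`PerfectField.separable_iff_squarefree`), `a h + b h' = 1` in `ℚ[X]`; clear denominators (`IsLocalization.integerNormalization_map_to_map` or `IsLocalization.integerNormalization_spec` with `nonZeroDivisors ℤ`, `Polynomial.map_injective`) to get `A h + B h' = C Δ` in `ℤ[X]`, `Δ ≠ 0`; evaluate at the root modulo `p`.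
`srp_fac`: let `h = g₁ * g₂`, `g₁` squarefree and coprime to `g₂` over `ℚ`, with a root modulo every large prime; then `g₁` is coprime to `g₁' * g₂`, `A g₁ + B g₁' g₂ = C Δ`, `h' = g₁' g₂ + g₁ g₂'`.  `srp_of`: `Δ = p₀ !` (`Nat.Prime.dvd_factorial`). -/

namespace Vale.Agent.P042.S

open Finset Polynomial

theorem bez_zsr {f g : ℤ[X]} (h : IsCoprime (f.map (Int.castRingHom ℚ)) (g.map (Int.castRingHom ℚ))) :
    ∃ Δ : ℤ, Δ ≠ 0 ∧ ∀ d t : ℤ, d ∣ f.eval t → d ∣ g.eval t → d ∣ Δ := by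
  obtain ⟨a, b, hab⟩ := h
  obtain ⟨u, hu, ha⟩ := IsLocalization.integerNormalization_spec (nonZeroDivisors ℤ) a
  obtain ⟨v, hv, hb⟩ := IsLocalization.integerNormalization_spec (nonZeroDivisors ℤ) b
  generalize IsLocalization.integerNormalization (nonZeroDivisors ℤ) a = A at ha
  generalize IsLocalization.integerNormalization (nonZeroDivisors ℤ) b = B at hb
  rw [algebraMap_int_eq, zsmul_eq_mul] at ha hb
  have h1 : (v : ℤ[X]) * A * f + (u : ℤ[X]) * B * g = ((u * v : ℤ) : ℤ[X]) := by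
    refine map_injective (Int.castRingHom ℚ) (RingHom.injective_int _) ?_
    simp only [Polynomial.map_add, Polynomial.map_mul, Polynomial.map_intCast, ha, hb, Int.cast_mul]
    linear_combination ((u : ℚ[X]) * v) * hab
  refine ⟨u * v, mul_ne_zero (nonZeroDivisors.ne_zero hu) (nonZeroDivisors.ne_zero hv),
    fun d t h2 h3 => ?_⟩
  have h4 := congrArg (eval t) h1
  rw [eval_add, eval_mul (q := f), eval_mul (q := g), eval_intCast, Int.cast_id] at h4
  rw [← h4]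
  exact dvd_add (h2.mul_left _) (h3.mul_left _)

theorem srp_sqf {h : ℤ[X]} (hs : Squarefree (h.map (Int.castRingHom ℚ)))
    (hi : ∀ q : ℕ, 1 ≤ q → ∃ t : ℤ, (q : ℤ) ∣ h.eval t) : SRp h := by
  have h1 := PerfectField.separable_iff_squarefree.2 hs
  rw [separable_def, derivative_map] at h1
  obtain ⟨Δ, h2, h3⟩ := bez_zsr h1
  refine ⟨Δ.natAbs, Int.natAbs_pos.2 h2, fun p hp hd => ?_⟩
  obtain ⟨t, ht⟩ := hi p hp.one_le
  exact ⟨t, ht, fun h4 => hd (Int.natCast_dvd.1 (h3 p t ht h4))⟩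

theorem srp_of {h : ℤ[X]} {p₀ : ℕ} (hs : ∀ p : ℕ, p.Prime → p₀ < p →
    ∃ ρ : ℤ, (p : ℤ) ∣ h.eval ρ ∧ ¬ (p : ℤ) ∣ (derivative h).eval ρ) : SRp h := by
  exact ⟨p₀.factorial, p₀.factorial_pos, fun p hp hd =>
    hs p hp (not_le.1 fun h1 => hd (hp.dvd_factorial.2 h1))⟩

theorem srp_fac {g₁ g₂ : ℤ[X]} (hs : Squarefree (g₁.map (Int.castRingHom ℚ)))
    (hc : IsCoprime (g₁.map (Int.castRingHom ℚ)) (g₂.map (Int.castRingHom ℚ))) {p₀ : ℕ}
    (hi : ∀ p : ℕ, p.Prime → p₀ < p → ∃ t : ℤ, (p : ℤ) ∣ g₁.eval t) : SRp (g₁ * g₂) := by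
  have h1 := (PerfectField.separable_iff_squarefree.2 hs : IsCoprime _ _).mul_right hc
  rw [derivative_map, ← Polynomial.map_mul] at h1
  obtain ⟨Δ, h2, h3⟩ := bez_zsr h1
  refine srp_of (p₀ := max p₀ Δ.natAbs) fun p hp hd => ?_
  obtain ⟨t, ht⟩ := hi p hp ((le_max_left _ _).trans_lt hd)
  refine ⟨t, by rw [eval_mul]; exact ht.mul_right _, fun h4 => ?_⟩
  rw [derivative_mul, eval_add, eval_mul (p := g₁) (q := derivative g₂), dvd_add_left (ht.mul_right _)] at h4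
  exact ((le_max_right _ _).trans_lt hd).not_ge
    (Nat.le_of_dvd (Int.natAbs_pos.2 h2) (Int.natCast_dvd.1 (h3 p t ht h4)))

end Vale.Agent.P042.S
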