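import Vale.Agent.P042.V.Main
import Vale.Agent.P042.Z.GlobZ
import Vale.Agent.P042.Z.Srp

/-! # P042 Z/Main: power saving for polynomials with simple roots modulo almost all primes. -/

namespace Vale.Agent.P042.S

open Finset Polynomial

theorem mainZ {h : ℤ[X]} (hk : 2 ≤ h.natDegree) (hl : 0 < h.leadingCoeff)
    (hi : ∀ q : ℕ, 1 ≤ q → ∃ t : ℤ, (q : ℤ) ∣ h.eval t) (hr : SRp h) : Sav h 1 := by
  obtain ⟨n₀, B, hn, hG⟩ := gro_poly hk hl 1
  have hT : 2 * B ^ 2 ≤ (⌈2 * B ^ 2⌉₊ : ℕ) := Nat.le_ceil _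
  have hT1 : 1 ≤ ⌈2 * B ^ 2⌉₊ := Nat.ceil_pos.mpr (by have := hG.one; positivity)
  obtain ⟨K, C, hC, hker⟩ := kernT hk hl hG hT
  obtain ⟨A₀, hA₀⟩ := globZ (η := 1 / 500) (by norm_num) (by norm_num) (by omega) hi hr
  obtain ⟨b, hb⟩ := pow_unbounded_of_one_lt B (show (1 : ℝ) < 2 by norm_num)
  obtain ⟨L₀, hL₀⟩ := half_tma hC
  obtain ⟨c, hc, has⟩ := asym1 (b + A₀ * K * h.natDegree)
  obtain ⟨C', hC'⟩ := has (L₀ + n₀ + 1) (16 * C)
  refine ⟨c, hc, C', fun N A hA hf => hC' N _ ?_ fun L hL hN => ?_⟩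
  · have := card_le_card hA
    rw [Nat.card_Icc, Nat.add_sub_cancel] at this
    exact_mod_cast this
  · obtain ⟨R, hR1, hR2, hw⟩ := hA₀ L (by omega)
    have hLR : L < R := Nat.lt_two_pow_self.trans_le hR1
    obtain ⟨E, M, hM, hTM, hs⟩ := hker L R (by omega) hR1 (by omega)
    obtain ⟨w, hw⟩ := hw E
    obtain ⟨h1, h2⟩ := hs w hw
    have h3 := tm_del hG hT1 hM hA (size_tma hb.le (by omega) hTM hR2 hN)
      (fun a ha b hb n hn' => hf a ha b hb n (hn.trans hn')) (by positivity) h1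
    have h4 := hL₀ L (by omega)
    have h5 : (0 : ℝ) < (3 / 2) ^ (2 * L) := by positivity
    have h6 : (0 : ℝ) ≤ A.card := Nat.cast_nonneg _
    have h7 : (1 / 8 : ℝ) * (3 / 2) ^ (2 * L) ≤ (Tm h w n₀ M ⌈2 * B ^ 2⌉₊ R (2 * L) 0).re :=
      (mul_le_mul_of_nonneg_right (by linarith) h5.le).trans h2
    have h8 := (mul_le_mul_of_nonneg_left h7 h6).trans h3
    refine le_of_mul_le_mul_right ?_ h5
    linarith

end Vale.Agent.P042.S
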