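import Vale.Agent.P042.Z.CPb
import Vale.Agent.P042.A.AdjB
import Vale.Agent.P042.A.AdjC

/-! # P042 Z/Sa0 (TASK; helper names end with _zsa): the ring of the curve.
`sa0`: `sa_adj` with `sa_base k` (`Fil (Basis.singleton Unit K[X]) k c` is `natDegree c ≤ k`: `Basis.singleton_repr`; `Cv.coef`), `Basis.singleton_apply`, `fib_adj` with `fib_base` (`Cv.sep`), `Cv.deg`.
`gam_ex`: `y = root f`, `q s = ∑ i ∈ range (d - s), of f (f.coeff (s + 1 + i)) * y ^ i`, `γ j s = if j.2 < d - 1 then (if j.2 = s then 1 else 0) else -q s`.  `Fil`: `of f c * y ^ i = c • e ((), i)` (`Algebra.smul_def`, `AdjoinRoot.algebraMap_eq`), `Fil.smul`, `fil_basis`, `Fil.sum`, `Fil.neg`, `1 = e ((), 0)`; terms with `s + 1 + i > d` vanish or do not occur.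
With `g = f.map (aeval x)`, `x = π (of f X)`, monic of degree `d`, `g (π y) = 0 = g η`: `(η - π y) * ∑ s < d, π (q s) * η ^ s = g η - g (π y)` (`div_ex` in I/Bas applied to `g` has unspecified `h i`, so it is better to DEFINE `q s` through `divByMonic`: `q = f.map (of f) /ₘ (X - C y)`, `mul_divByMonic_eq_iff_isRoot`, coefficients by `coeff_divByMonic_X_sub_C`), and `q` is monic of degree `d - 1`. -/

namespace Vale.Agent.P042.S

open Finset Polynomial

variable {K : Type} [Field K] {H : K[X]} {f : K[X][X]}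

theorem sa0 [IsAlgClosed K] (h : Cv H f) :
    ∃ (e : Module.Basis (Unit × Fin f.natDegree) K[X] (AdjoinRoot f))
      (δ : AdjoinRoot f →ₗ[K] AdjoinRoot f), SA e δ ((4 * H.natDegree + 10) * H.natDegree) ∧
      (∀ j, e j = AdjoinRoot.root f ^ j.2.val) ∧
      ∀ x₀, (∀ γ, (derivative H).eval γ = 0 → H.eval γ ≠ -H.eval x₀) →
        ∃ T, Fib δ f.natDegree x₀ T := by
  obtain ⟨e, δ, h1, h2, h3⟩ := sa_adj (sa_base (K := K) H.natDegree) h.mon rfl h.deg.1
    (fun i _ => by rw [Module.Basis.singleton_repr]; exact h.coef i)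
  refine ⟨e, δ, ?_, fun j => ?_, fun x₀ hx => ?_⟩
  · refine ⟨h1.leib, h1.one.mono ?_, fun i j => (h1.mul i j).mono ?_, fun i => (h1.de i).mono ?_,
      h1.dx.mono ?_⟩ <;>
      exact Nat.mul_le_mul_right _ (Nat.add_le_add_right (Nat.mul_le_mul_left 4 h.deg.2) 10)
  · rw [show j = (j.1, j.2) from rfl, h2, Module.Basis.singleton_apply, map_one, one_mul]
  · have := fib_adj h.mon rfl h3 (fib_base x₀) fun π hπ => by
      rw [mem_singleton.1 hπ]
      exact h.sep hx
    rwa [one_mul] at this

theorem gam_ex (h : Cv H f) {e : Module.Basis (Unit × Fin f.natDegree) K[X] (AdjoinRoot f)}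
    (he : ∀ j, e j = AdjoinRoot.root f ^ j.2.val) :
    ∃ γ : Unit × Fin f.natDegree → Fin (f.natDegree - 1) → AdjoinRoot f,
      (∀ j s, Fil e H.natDegree (γ j s)) ∧ ∀ (π : AdjoinRoot f →ₐ[K] K) (η : K),
        On f (π (AdjoinRoot.of f X)) η → η ≠ π (AdjoinRoot.root f) →
          ∀ j, η ^ j.2.val = ∑ s, π (γ j s) * η ^ s.val := by
  set q := f.map (AdjoinRoot.of f) /ₘ (X - C (AdjoinRoot.root f)) with hq
  have d0 := h.deg.1
  have f1 : Fil e H.natDegree 1 := by
    have := fil_basis (e := e) ((), ⟨0, d0⟩)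
    rw [he, pow_zero] at this
    exact this.mono (Nat.zero_le _)
  have fq : ∀ s, Fil e H.natDegree (q.coeff s) := by
    intro s
    rw [hq, coeff_divByMonic_X_sub_C]
    refine Fil.sum fun i hi => ?_
    have h1 := mem_Icc.1 hi
    have h2 : (f.map (AdjoinRoot.of f)).natDegree ≤ f.natDegree := natDegree_map_le
    have h3 := Fil.smul (h.coef i) (fil_basis (e := e) ((), ⟨i - (s + 1), by omega⟩))
    rwa [he, Algebra.smul_def, AdjoinRoot.algebraMap_eq, mul_comm, ← coeff_map] at h3
  refine ⟨fun j s => if j.2.val < f.natDegree - 1 then (if j.2.val = s.val then 1 else 0)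
    else -q.coeff s, fun j s => ?_, fun π η h1 h2 j => ?_⟩
  · dsimp only
    split_ifs
    · exact f1
    · exact fil_zero _
    · exact (fq s).neg
  · by_cases hj : j.2.val < f.natDegree - 1
    · simp only [hj, if_true]
      rw [sum_eq_single ⟨j.2.val, hj⟩]
      · simp
      · intro s _ hs
        rw [if_neg fun k => hs (Fin.ext k.symm), map_zero, zero_mul]
      · simp
    · have : Nontrivial (AdjoinRoot f) := (π : AdjoinRoot f →+* K).domain_nontrivial
      have hj' : j.2.val = f.natDegree - 1 := by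
        have := j.2.2
        omega
      have m1 : (f.map (AdjoinRoot.of f)).Monic := h.mon.map _
      have m2 : (f.map (AdjoinRoot.of f)).natDegree = f.natDegree := h.mon.natDegree_map _
      have q1 : q.natDegree = f.natDegree - 1 := by
        rw [hq, natDegree_divByMonic _ (monic_X_sub_C _), natDegree_X_sub_C, m2]
      have q2 : (X - C (AdjoinRoot.root f)) * q = f.map (AdjoinRoot.of f) :=
        mul_divByMonic_eq_iff_isRoot.2 (AdjoinRoot.isRoot_root f)
      have q3 : q.Monic := (monic_X_sub_C _).of_mul_monic_left (q2 ▸ m1)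
      have e1 : (π : AdjoinRoot f →+* K).comp (AdjoinRoot.of f) =
          ((aeval (π (AdjoinRoot.of f X)) : K[X] →ₐ[K] K) : K[X] →+* K) := by
        refine Polynomial.ringHom_ext (fun a => ?_) (by simp)
        have := π.commutes a
        rw [AdjoinRoot.algebraMap_eq', RingHom.comp_apply] at this
        simpa using this
      have e2 := congrArg (eval₂ (π : AdjoinRoot f →+* K) η) q2
      rw [eval₂_mul, eval₂_map, e1, ← eval_map _ η (p := f), h1, eval₂_sub, eval₂_X, eval₂_C,
        eval₂_eq_sum_range, sum_range_succ, q3.coeff_natDegree, map_one, one_mul, q1] at e2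
      have e3 := (mul_eq_zero.1 e2).resolve_left (sub_ne_zero.2 h2)
      simp only [hj, if_false, map_neg, neg_mul, sum_neg_distrib]
      rw [hj', Fin.sum_univ_eq_sum_range (fun s => π (q.coeff s) * η ^ s)]
      exact eq_neg_of_add_eq_zero_right e3

end Vale.Agent.P042.S
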