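import Vale.Agent.P042.Z.Sa0

/-! # P042 Z/Sa2 (TASK; helper names end with _zsb): the ring of the fibre product.
`m₀ = k + (4 k + 10) k`, `m₁ = (4 k + 10) m₀`, `M = (4 k + 10) m₁`.  `sa0`, `SA.mono`, then `sa_adj` for `g1` (`g1_monic`; each coefficient is `algebraMap K[X] _ c = c • 1` with `natDegree c ≤ k`: `Fil.smul`, `SA.one`), then `sa_adj` for `g2` (coefficient `aeval z (f.coeff i) = ∑ j ≤ k, of (algebraMap c_j) * z ^ j`, `Cv.coef`, `fil_rt`, `Fil.sum`, `m₀ + j * (2 m₀) ≤ m₁`), `Cv.deg`, `SA.mono`.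
`Fib`: `fib_adj` twice.  For `π` over `x₀`: `g1_map`, `sep_lev`, `Separable` is kept under a unit factor (`Separable.unit_mul` or `Associated.separable`); `g2_map`, `Cv.sep` at `z = π (root g1)`, where `H z = H x₀ + t` (`g1_map` for `π ∘ of`, `AdjoinRoot.eval₂_root`).  `Fintype.card_prod`. -/

namespace Vale.Agent.P042.S

open Finset Polynomial

theorem g1c_zsb {K : Type} [Field K] (H : K[X]) (f : K[X][X]) (t : K) (i : ℕ) :
    ∃ c : K[X], c.natDegree ≤ H.natDegree ∧ (g1 H f t).coeff i = c • (1 : AdjoinRoot f) := by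
  refine ⟨C H.leadingCoeff⁻¹ * (C (H.coeff i) - if i = 0 then H + C t else 0), ?_, ?_⟩
  · refine (natDegree_C_mul_le _ _).trans ((natDegree_sub_le _ _).trans
      (max_le ((natDegree_C _).le.trans (Nat.zero_le _)) ?_))
    split_ifs
    · exact natDegree_add_C.le
    · exact natDegree_zero.le.trans (Nat.zero_le _)
  · rw [g1, coeff_C_mul, coeff_sub, coeff_map, coeff_C, ← Algebra.algebraMap_eq_smul_one, map_mul,
      map_sub, IsScalarTower.algebraMap_apply K K[X] (AdjoinRoot f) H.leadingCoeff⁻¹,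
      IsScalarTower.algebraMap_apply K K[X] (AdjoinRoot f) (H.coeff i)]
    split_ifs
    · rfl
    · rw [map_zero]
      rfl

theorem sa2 (k : ℕ) : ∃ M : ℕ, ∀ (K : Type) [Field K] [IsAlgClosed K] (H : K[X]) (f : K[X][X])
    (t : K), H.natDegree = k → Cv H f →
    ∃ (e : Module.Basis (((Unit × Fin f.natDegree) × Fin k) × Fin f.natDegree) K[X] (A2 H f t))
      (δ : A2 H f t →ₗ[K] A2 H f t), SA e δ M ∧
      (∀ j, ∃ a b c : ℕ, e j = cY H f t ^ a * cZ H f t ^ b * cW H f t ^ c) ∧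
      ∀ x₀, Gd H t x₀ → ∃ T, Fib δ
        (Fintype.card (((Unit × Fin f.natDegree) × Fin k) × Fin f.natDegree)) x₀ T := by
  refine ⟨(4 * k + 10) * ((4 * k + 10) * (k + (4 * k + 10) * k)), ?_⟩
  intro K _ _ H f t hk h
  subst hk
  obtain ⟨m1, d1, n0, n1, m2, d2, -⟩ := g1_monic h t
  obtain ⟨e0, δ0, s0, b0, f0⟩ := sa0 h
  have s0' := s0.mono (Nat.le_add_left _ H.natDegree)
  have c1 : ∀ i, Fil e0 (H.natDegree + (4 * H.natDegree + 10) * H.natDegree)
      ((g1 H f t).coeff i) := fun i => by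
    obtain ⟨c, h1, h2⟩ := g1c_zsb H f t i
    rw [h2]
    exact Fil.smul h1 s0.one
  generalize H.natDegree + (4 * H.natDegree + 10) * H.natDegree = m₀ at s0' c1 ⊢
  obtain ⟨e1, δ1, s1, b1, x1⟩ := sa_adj s0' m1 d1 h.pos c1
  have c2 : ∀ i, Fil e1 ((4 * H.natDegree + 10) * m₀) ((g2 H f t).coeff i) := fun i => by
    rw [g2, coeff_map, RingHom.coe_coe, aeval_eq_sum_range' (Nat.lt_succ_of_le (h.coef i))]
    refine Fil.sum fun j hj => ?_
    have hj' := Nat.le_of_lt_succ (mem_range.1 hj)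
    have h1 : Fil e0 m₀ (algebraMap K (AdjoinRoot f) ((f.coeff i).coeff j)) := by
      have h2 := Fil.smul (natDegree_C ((f.coeff i).coeff j)).le s0'.one
      rwa [zero_add, ← Algebra.algebraMap_eq_smul_one, C_eq_algebraMap,
        ← IsScalarTower.algebraMap_apply] at h2
    have h3 := fil_rt s0' m1 d1 h.pos c1 b1 h1 j
    rw [Algebra.smul_def, AdjoinRoot.algebraMap_eq', RingHom.comp_apply]
    refine h3.mono ?_
    have := Nat.mul_le_mul_right (2 * m₀) hj'
    nlinarith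
  obtain ⟨e2, δ2, s2, b2, x2⟩ := sa_adj s1 m2 d2 h.deg.1 c2
  refine ⟨e2, δ2, s2.mono (Nat.mul_le_mul_right _ (by have := h.deg.2; omega)), ?_,
    fun x₀ hG => ?_⟩
  · rintro ⟨⟨j, b⟩, c⟩
    refine ⟨j.2.val, b.val, c.val, ?_⟩
    rw [b2, b1, b0, map_mul, map_pow, map_pow, map_pow]
    rfl
  · have hc : H.leadingCoeff ≠ 0 := leadingCoeff_ne_zero.2 (ne_zero_of_natDegree_gt h.pos)
    obtain ⟨T0, t0⟩ := f0 x₀ fun γ hγ => (hG γ hγ).1
    obtain ⟨T1, t1⟩ := fib_adj m1 d1 x1 t0 fun π hπ => by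
      have h1 : π (AdjoinRoot.of f X) = x₀ := t0.ov π hπ
      rw [g1_map, h1, Algebra.algebraMap_self, Polynomial.map_id, RingHom.id_apply,
        RingHom.id_apply, coe_aeval_eq_eval]
      exact (sep_lev fun γ hγ => (hG γ hγ).2.1).unit_mul
        (isUnit_C.2 (inv_ne_zero hc).isUnit)
    obtain ⟨T2, t2⟩ := fib_adj m2 d2 x2 t1 fun π hπ => by
      have h1 : (π.comp (AdjoinRoot.ofAlgHom K (g1 H f t))) (AdjoinRoot.of f X) = x₀ := t1.ov π hπ
      have h2 := rt_ito π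
      rw [g1_map, h1, Algebra.algebraMap_self, Polynomial.map_id, RingHom.id_apply,
        RingHom.id_apply, coe_aeval_eq_eval, eval_mul, eval_C, eval_sub, eval_C] at h2
      have h3 := sub_eq_zero.1 ((mul_eq_zero.1 h2).resolve_left (inv_ne_zero hc))
      rw [g2_map]
      refine h.sep fun γ hγ => ?_
      rw [h3]
      exact (hG γ hγ).2.2
    refine ⟨T2, ?_⟩
    rw [Fintype.card_prod, Fintype.card_prod, Fintype.card_prod, Fintype.card_unit, one_mul,
      Fintype.card_fin, Fintype.card_fin]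
    exact t2

end Vale.Agent.P042.S
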